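import Vale.Agent.Lib.P087.G.Defs

/-! P087 G/Basis: the coordinates `herm`. -/

open MeasureTheory ProbabilityTheory Matrix MvPolynomial

namespace P087.GU

variable {k : ℕ}

private theorem sq2 : ((Real.sqrt 2 : ℝ) : ℂ) * ((Real.sqrt 2 : ℝ) : ℂ) = 2 := by
  rw [← Complex.ofReal_mul, Real.mul_self_sqrt (by norm_num)]
  norm_num

private theorem s2ne : ((Real.sqrt 2 : ℝ) : ℂ) ≠ 0 := by
  intro h
  have := sq2
  rw [h] at this
  norm_num at this

/-- first coordinate of an entry -/
private noncomputable def bx (i j : Fin k) : Fin k × Fin k := if j < i then (j, i) else (i, j)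

private noncomputable def ba (i j : Fin k) : ℂ := if i = j then 1 else 1 / ((Real.sqrt 2 : ℝ) : ℂ)

private noncomputable def bb (i j : Fin k) : ℂ :=
  if i = j then 0 else if i < j then Complex.I / ((Real.sqrt 2 : ℝ) : ℂ)
    else -Complex.I / ((Real.sqrt 2 : ℝ) : ℂ)

private theorem herm_apply (v : Fin k × Fin k → ℝ) (i j : Fin k) :
    herm v i j = ba i j * (v (bx i j) : ℂ) + bb i j * (v (bx i j).swap : ℂ) := by
  unfold herm ba bb bx
  rcases lt_trichotomy i j with h | h | h
  · rw [if_neg h.ne, if_pos h, if_neg h.ne, if_neg h.ne, if_pos h, if_neg h.not_gt]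
    simp only [Prod.swap_prod_mk]
    ring
  · subst h
    simp
  · rw [if_neg h.ne', if_neg h.not_gt, if_neg h.ne', if_neg h.ne', if_neg h.not_gt, if_pos h]
    simp only [Prod.swap_prod_mk]
    ring

private theorem Bm_apply (p : Fin k × Fin k) (i j : Fin k) :
    Bm p i j = ba i j * (if bx i j = p then 1 else 0) +
      bb i j * (if (bx i j).swap = p then 1 else 0) := by
  unfold Bm
  rw [herm_apply]
  simp only [Pi.single_apply]
  split_ifs <;> simp

theorem herm_eq_sum (v : Fin k × Fin k → ℝ) : herm v = ∑ p, (v p : ℂ) • Bm p := by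
  ext i j
  rw [Matrix.sum_apply, herm_apply]
  simp only [Matrix.smul_apply, smul_eq_mul, Bm_apply, mul_add, Finset.sum_add_distrib]
  congr 1
  · rw [Finset.sum_eq_single (bx i j)]
    · rw [if_pos rfl]; ring
    · intro b _ hb
      rw [if_neg (fun h => hb h.symm)]; ring
    · intro h
      exact absurd (Finset.mem_univ _) h
  · rw [Finset.sum_eq_single (bx i j).swap]
    · rw [if_pos rfl]; ring
    · intro b _ hb
      rw [if_neg (fun h => hb h.symm)]; ring
    · intro h
      exact absurd (Finset.mem_univ _) h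

theorem herm_conjTranspose (v : Fin k × Fin k → ℝ) : (herm v)ᴴ = herm v := by
  ext i j
  rw [Matrix.conjTranspose_apply]
  unfold herm
  rcases lt_trichotomy i j with h | h | h
  · rw [if_neg h.ne', if_neg h.not_gt, if_neg h.ne, if_pos h]
    simp [Complex.conj_ofReal]
  · subst h
    simp
  · rw [if_neg h.ne, if_pos h, if_neg h.ne', if_neg h.not_gt]
    simp [Complex.conj_ofReal, sub_eq_add_neg]

private theorem sum_delta (α β γ δ : ℂ) (x y z w : Fin k × Fin k) :
    ∑ p : Fin k × Fin k, (α * (if x = p then 1 else 0) + β * (if y = p then 1 else 0)) *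
      (γ * (if z = p then 1 else 0) + δ * (if w = p then 1 else 0)) =
      α * γ * (if x = z then 1 else 0) + α * δ * (if x = w then 1 else 0) +
        β * γ * (if y = z then 1 else 0) + β * δ * (if y = w then 1 else 0) := by
  have key : ∀ (a b : Fin k × Fin k), ∑ p : Fin k × Fin k,
      (if a = p then (1 : ℂ) else 0) * (if b = p then 1 else 0) = if a = b then 1 else 0 := by
    intro a b
    rw [Finset.sum_eq_single a]
    · by_cases h : a = b
      · subst h; simp
      · simp [h, Ne.symm h]
    · intro c _ hc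
      rw [if_neg (fun h => hc h.symm), zero_mul]
    · intro h
      exact absurd (Finset.mem_univ _) h
  rw [← key x z, ← key x w, ← key y z, ← key y w, Finset.mul_sum, Finset.mul_sum,
    Finset.mul_sum, Finset.mul_sum, ← Finset.sum_add_distrib, ← Finset.sum_add_distrib,
    ← Finset.sum_add_distrib]
  refine Finset.sum_congr rfl fun p _ => ?_
  ring

theorem Bm_fusion (i j l m : Fin k) :
    ∑ p, Bm p i j * Bm p l m = if i = m ∧ j = l then 1 else 0 := by
  simp only [Bm_apply]
  rw [sum_delta]
  have h2 : (1 / ((Real.sqrt 2 : ℝ) : ℂ)) * (1 / ((Real.sqrt 2 : ℝ) : ℂ)) = 1 / 2 := by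
    rw [div_mul_div_comm, sq2, one_mul]
  have hI : (Complex.I / ((Real.sqrt 2 : ℝ) : ℂ)) * (Complex.I / ((Real.sqrt 2 : ℝ) : ℂ)) =
      -(1 / 2) := by
    rw [div_mul_div_comm, sq2, Complex.I_mul_I]
    norm_num
  have hI2 : (Complex.I / ((Real.sqrt 2 : ℝ) : ℂ)) * (-Complex.I / ((Real.sqrt 2 : ℝ) : ℂ)) =
      1 / 2 := by
    rw [div_mul_div_comm, sq2, mul_neg, Complex.I_mul_I]
    norm_num
  have hI3 : (-Complex.I / ((Real.sqrt 2 : ℝ) : ℂ)) * (Complex.I / ((Real.sqrt 2 : ℝ) : ℂ)) =
      1 / 2 := by
    rw [mul_comm, hI2]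
  have hI4 : (-Complex.I / ((Real.sqrt 2 : ℝ) : ℂ)) * (-Complex.I / ((Real.sqrt 2 : ℝ) : ℂ)) =
      -(1 / 2) := by
    rw [div_mul_div_comm, sq2, neg_mul_neg, Complex.I_mul_I]
    norm_num
  unfold ba bb bx
  rcases lt_trichotomy i j with h | h | h
  · rcases lt_trichotomy l m with h' | h' | h'
    · rw [if_neg h.ne, if_neg h'.ne, if_neg h.ne, if_pos h, if_neg h'.ne, if_pos h',
        if_neg h.not_gt, if_neg h'.not_gt, h2, hI]
      simp only [Prod.swap_prod_mk, Prod.mk.injEq]
      by_cases e1 : i = l
      · by_cases e2 : j = m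
        · subst e1 e2
          have : ¬ (i = j) := h.ne
          have h3 : ¬ (j = i) := h.ne'
          simp [this, h3]
        · subst e1
          have h3 : ¬ (j = i) := h.ne'
          have h4 : ¬ (i = m) := h'.ne
          simp [e2, h3, h4]
      · by_cases e2 : i = m
        · subst e2
          have h3 : ¬ (j = l) := fun hh => absurd (hh ▸ h) h'.not_gt
          simp [e1, h3]
        · by_cases e3 : j = l
          · subst e3
            simp [e1, e2]
          · simp [e1, e2, e3]
    · subst h'
      rw [if_neg h.ne, if_pos rfl, if_neg h.ne, if_pos h, if_pos rfl, if_neg h.not_gt,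
        if_neg (lt_irrefl l)]
      simp only [Prod.swap_prod_mk, Prod.mk.injEq]
      by_cases e1 : i = l
      · subst e1
        have h3 : ¬ (j = i) := h.ne'
        simp [h3]
      · simp [e1]
    · rw [if_neg h.ne, if_neg h'.ne', if_neg h.ne, if_pos h, if_neg h'.ne', if_neg h'.not_gt,
        if_neg h.not_gt, if_pos h', h2, hI2]
      simp only [Prod.swap_prod_mk, Prod.mk.injEq]
      by_cases e1 : i = m
      · by_cases e2 : j = l
        · subst e1 e2
          have h3 : ¬ (j = i) := h.ne'
          have h4 : ¬ (i = j) := h.ne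
          simp [h3, h4]
          norm_num
        · subst e1
          have h3 : ¬ (j = i) := h.ne'
          have h4 : ¬ (i = l) := h'.ne
          simp [e2, h3, h4]
      · by_cases e2 : i = l
        · subst e2
          have h3 : ¬ (j = m) := fun hh => absurd (hh ▸ h) h'.not_gt
          simp [e1, h3]
        · simp [e1, e2]
  · subst h
    rcases lt_trichotomy l m with h' | h' | h'
    · rw [if_pos rfl, if_neg h'.ne, if_pos rfl, if_neg h'.ne, if_pos h', if_neg (lt_irrefl i),
        if_neg h'.not_gt]
      simp only [Prod.swap_prod_mk, Prod.mk.injEq]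
      by_cases e1 : i = l
      · subst e1
        have h4 : ¬ (i = m) := h'.ne
        simp [h4]
      · simp [e1]
    · subst h'
      by_cases e1 : i = l
      · subst e1
        simp
      · simp [e1]
    · rw [if_pos rfl, if_neg h'.ne', if_pos rfl, if_neg h'.ne', if_neg h'.not_gt,
        if_neg (lt_irrefl i), if_pos h']
      simp only [Prod.swap_prod_mk, Prod.mk.injEq]
      by_cases e1 : i = l
      · subst e1
        have h4 : ¬ (i = m) := h'.ne'
        simp [h4]
      · simp [e1]
  · rcases lt_trichotomy l m with h' | h' | h'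
    · rw [if_neg h.ne', if_neg h'.ne, if_neg h.ne', if_neg h.not_gt, if_neg h'.ne, if_pos h',
        if_pos h, if_neg h'.not_gt, h2, hI3]
      simp only [Prod.swap_prod_mk, Prod.mk.injEq]
      by_cases e1 : i = m
      · by_cases e2 : j = l
        · subst e1 e2
          have h3 : ¬ (j = i) := h.ne
          have h4 : ¬ (i = j) := h.ne'
          simp [h3, h4]
          norm_num
        · subst e1
          have h3 : ¬ (j = i) := h.ne
          have h4 : ¬ (i = l) := h'.ne'
          simp [e2, h3, h4]
      · by_cases e2 : i = l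
        · subst e2
          have h3 : ¬ (j = m) := fun hh => absurd (hh ▸ h) h'.not_gt
          simp [e1, h3]
        · simp [e1, e2]
    · subst h'
      rw [if_neg h.ne', if_pos rfl, if_neg h.ne', if_neg h.not_gt, if_pos rfl, if_pos h,
        if_neg (lt_irrefl l)]
      simp only [Prod.swap_prod_mk, Prod.mk.injEq]
      by_cases e1 : i = l
      · subst e1
        have h3 : ¬ (j = i) := h.ne
        simp [h3]
      · simp [e1]
    · rw [if_neg h.ne', if_neg h'.ne', if_neg h.ne', if_neg h.not_gt, if_neg h'.ne',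
        if_neg h'.not_gt, if_pos h, if_pos h', h2, hI4]
      simp only [Prod.swap_prod_mk, Prod.mk.injEq]
      by_cases e1 : i = l
      · by_cases e2 : j = m
        · subst e1 e2
          have : ¬ (i = j) := h.ne'
          have h3 : ¬ (j = i) := h.ne
          simp [this, h3]
        · subst e1
          have h3 : ¬ (j = i) := h.ne
          have h4 : ¬ (i = m) := h'.ne'
          simp [e2, h3, h4]
      · by_cases e2 : i = m
        · subst e2
          have h3 : ¬ (j = l) := fun hh => absurd (hh ▸ h) h'.not_gt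
          simp [e1, h3]
        · by_cases e3 : j = l
          · subst e3
            simp [e1, e2]
          · simp [e1, e2, e3]

theorem trace_herm_sq (v : Fin k × Fin k → ℝ) :
    (herm v * herm v).trace = ((∑ p, v p ^ 2 : ℝ) : ℂ) := by
  have key : ∀ i j : Fin k, herm v i j * herm v j i =
      ((v (i, j) : ℂ) ^ 2 + (v (j, i) : ℂ) ^ 2) / 2 := by
    intro i j
    have h2 : ∀ a b : ℂ, (a / ((Real.sqrt 2 : ℝ) : ℂ)) * (b / ((Real.sqrt 2 : ℝ) : ℂ)) =
        a * b / 2 := by
      intro a b
      rw [div_mul_div_comm, sq2]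
    unfold herm
    rcases lt_trichotomy i j with h | h | h
    · rw [if_neg h.ne, if_pos h, if_neg h.ne', if_neg h.not_gt, h2]
      congr 1
      linear_combination (-(v (j, i) : ℂ) ^ 2) * Complex.I_mul_I
    · subst h
      simp
      ring
    · rw [if_neg h.ne', if_neg h.not_gt, if_neg h.ne, if_pos h, h2]
      congr 1
      linear_combination (-(v (i, j) : ℂ) ^ 2) * Complex.I_mul_I
  unfold Matrix.trace
  simp only [Matrix.diag_apply, Matrix.mul_apply, key]
  push_cast
  rw [Fintype.sum_prod_type]
  simp only [add_div, Finset.sum_add_distrib]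
  have hsw : ∑ x : Fin k, ∑ y : Fin k, (v (y, x) : ℂ) ^ 2 / 2 =
      ∑ x : Fin k, ∑ y : Fin k, (v (x, y) : ℂ) ^ 2 / 2 := Finset.sum_comm
  rw [hsw, ← Finset.sum_add_distrib]
  refine Finset.sum_congr rfl fun x _ => ?_
  rw [← Finset.sum_add_distrib]
  refine Finset.sum_congr rfl fun y _ => ?_
  ring

theorem continuous_herm : Continuous (fun v : Fin k × Fin k → ℝ => herm v) := by
  refine continuous_matrix fun i j => ?_
  simp only [herm_apply]
  fun_prop

/-- every self-adjoint matrix has coordinates -/
theorem herm_surj (A : Matrix (Fin k) (Fin k) ℂ) (hA : Aᴴ = A) : ∃ v, herm v = A := by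
  have hA' : ∀ i j, star (A j i) = A i j := fun i j => by
    rw [← Matrix.conjTranspose_apply, hA]
  refine ⟨fun p => if p.1 = p.2 then (A p.1 p.1).re else
    if p.1 < p.2 then Real.sqrt 2 * (A p.1 p.2).re else Real.sqrt 2 * (A p.2 p.1).im, ?_⟩
  ext i j
  unfold herm
  rcases lt_trichotomy i j with h | h | h
  · simp only [if_neg h.ne, if_pos h, if_neg h.ne', if_neg h.not_gt]
    push_cast
    rw [div_eq_iff s2ne]
    conv_rhs => rw [← Complex.re_add_im (A i j)]
    ring
  · subst h
    simp only [if_true]
    have := hA' i i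
    rw [Complex.star_def, Complex.conj_eq_iff_re] at this
    exact this
  · simp only [if_neg h.ne', if_neg h.not_gt, if_neg h.ne, if_pos h]
    push_cast
    rw [div_eq_iff s2ne, ← hA' i j]
    conv_rhs => rw [← Complex.re_add_im (A j i)]
    simp only [star_add, star_mul', Complex.star_def, Complex.conj_ofReal, Complex.conj_I]
    ring

end P087.GU
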