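import Vale.Agent.Lib.P087.G.Defs

/-! P087 G/Dens: density bound for the Gaussian measure. -/

open MeasureTheory ProbabilityTheory

namespace P087.GU

theorem pi_measure_mono {α : Type} [Fintype α] {β : α → Type} [∀ a, MeasurableSpace (β a)]
    (μ ν : ∀ a, Measure (β a)) (h : ∀ a, μ a ≤ ν a) : Measure.pi μ ≤ Measure.pi ν := by
  rw [Measure.le_iff]
  intro S hS
  rw [Measure.pi, Measure.pi, toMeasure_apply _ _ hS, toMeasure_apply _ _ hS]
  have hle : OuterMeasure.pi (fun i => (μ i).toOuterMeasure) ≤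
      OuterMeasure.pi (fun i => (ν i).toOuterMeasure) := by
    rw [OuterMeasure.le_pi]
    intro s _
    refine (OuterMeasure.pi_pi_le _ s).trans ?_
    exact Finset.prod_le_prod' fun i _ => h i (s i)
  exact hle S

theorem pi_measure_smul {α : Type} [Fintype α] {β : α → Type} [∀ a, MeasurableSpace (β a)]
    (ν : ∀ a, Measure (β a)) [∀ a, SigmaFinite (ν a)] (c : NNReal) :
    Measure.pi (fun a => c • ν a) = (c ^ Fintype.card α : NNReal) • Measure.pi ν := by
  refine Measure.pi_eq fun s _ => ?_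
  rw [Measure.smul_apply, Measure.pi_pi]
  simp only [Measure.smul_apply]
  simp only [ENNReal.smul_def, smul_eq_mul, Finset.prod_mul_distrib, Finset.prod_const,
    Finset.card_univ, ENNReal.coe_pow]

theorem gaussian_le (k : ℕ) (hk : 0 < k) :
    gaussianReal 0 (1 / (k : NNReal)) ≤
      (Real.toNNReal (Real.sqrt (k / (2 * Real.pi)))) • (volume : Measure ℝ) := by
  have hv : (1 / (k : NNReal)) ≠ 0 := by positivity
  rw [gaussianReal_of_var_ne_zero 0 hv]
  rw [Measure.le_iff]
  intro S hS
  rw [withDensity_apply _ hS, Measure.smul_apply]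
  have hb : ∀ x, gaussianPDF 0 (1 / (k : NNReal)) x ≤
      ((Real.toNNReal (Real.sqrt (k / (2 * Real.pi))) : NNReal) : ENNReal) := by
    intro x
    rw [gaussianPDF]
    change ENNReal.ofReal _ ≤ ENNReal.ofReal _
    apply ENNReal.ofReal_le_ofReal
    rw [gaussianPDFReal]
    have h1 : Real.exp (-(x - 0) ^ 2 / (2 * ((1 / (k : NNReal) : NNReal) : ℝ))) ≤ 1 := by
      rw [Real.exp_le_one_iff]
      apply div_nonpos_of_nonpos_of_nonneg
      · have := sq_nonneg (x - 0)
        linarith
      · positivity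
    have h2 : (Real.sqrt (2 * Real.pi * ((1 / (k : NNReal) : NNReal) : ℝ)))⁻¹ =
        Real.sqrt (k / (2 * Real.pi)) := by
      rw [← Real.sqrt_inv]
      congr 1
      push_cast
      field_simp
    rw [h2]
    calc Real.sqrt (k / (2 * Real.pi)) * _ ≤ Real.sqrt (k / (2 * Real.pi)) * 1 :=
          mul_le_mul_of_nonneg_left h1 (Real.sqrt_nonneg _)
      _ = _ := mul_one _
  calc ∫⁻ a in S, gaussianPDF 0 (1 / (k : NNReal)) a
      ≤ ∫⁻ _ in S, ((Real.toNNReal (Real.sqrt (k / (2 * Real.pi))) : NNReal) : ENNReal) :=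
        lintegral_mono hb
    _ = _ := by
        rw [lintegral_const, Measure.restrict_apply MeasurableSet.univ, Set.univ_inter]
        rfl

theorem gm_le {ι : Type} [Fintype ι] (k : ℕ) (hk : 0 < k)
    (S : Set (ι → Fin k × Fin k → ℝ)) (hS : MeasurableSet S) :
    gm ι k S ≤ ENNReal.ofReal (Real.sqrt (k / (2 * Real.pi)) ^ (Fintype.card ι * k ^ 2)) *
      volume S := by
  set c : NNReal := Real.toNNReal (Real.sqrt (k / (2 * Real.pi))) with hc
  have h1 : Measure.pi (fun _ : Fin k × Fin k => gaussianReal 0 (1 / (k : NNReal))) ≤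
      (c ^ (k * k) : NNReal) • (volume : Measure (Fin k × Fin k → ℝ)) := by
    refine (pi_measure_mono _ (fun _ => c • (volume : Measure ℝ)) fun _ => gaussian_le k hk).trans ?_
    rw [pi_measure_smul]
    simp only [Fintype.card_prod, Fintype.card_fin]
    exact le_refl _
  have h2 : gm ι k ≤ ((c ^ (k * k)) ^ (Fintype.card ι) : NNReal) •
      (volume : Measure (ι → Fin k × Fin k → ℝ)) := by
    refine (pi_measure_mono _ (fun _ => (c ^ (k * k) : NNReal) •
      (volume : Measure (Fin k × Fin k → ℝ))) fun _ => h1).trans ?_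
    rw [pi_measure_smul]
    exact le_refl _
  refine (h2 S).trans ?_
  rw [Measure.smul_apply, ENNReal.smul_def, smul_eq_mul]
  refine mul_le_mul' (le_of_eq ?_) (le_refl _)
  rw [← pow_mul]
  have h3 : k * k * Fintype.card ι = Fintype.card ι * k ^ 2 := by ring
  rw [h3]
  rw [ENNReal.ofReal_pow (Real.sqrt_nonneg _)]
  rw [ENNReal.coe_pow]
  rfl

end P087.GU
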