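import Vale.Agent.Lib.P087.G.Defs

/-! P087 G/Det: a self-adjoint matrix of large norm has a large quadratic form on a ball. -/

open MeasureTheory ProbabilityTheory Matrix MvPolynomial

namespace P087.GU

variable {k : ℕ}

private theorem det_norm_sq (x : Fin k → ℂ) :
    ‖(WithLp.toLp 2 x : EuclideanSpace ℂ (Fin k))‖ ^ 2 = ∑ i, ‖x i‖ ^ 2 := by
  rw [EuclideanSpace.norm_sq_eq]

private theorem det_quad (x : Fin k → ℂ) (A : Matrix (Fin k) (Fin k) ℂ) :
    quad x A = inner ℂ (WithLp.toLp 2 x : EuclideanSpace ℂ (Fin k))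
      (WithLp.toLp 2 (A.mulVec x)) := by
  rw [EuclideanSpace.inner_toLp_toLp]
  unfold quad
  exact dotProduct_comm _ _

private theorem det_eig (A : Matrix (Fin k) (Fin k) ℂ) (hA : A.IsHermitian) (x : Fin k → ℂ)
    (j : Fin k) :
    inner ℂ (hA.eigenvectorBasis j) (WithLp.toLp 2 (A.mulVec x) : EuclideanSpace ℂ (Fin k)) =
      (hA.eigenvalues j : ℂ) * inner ℂ (hA.eigenvectorBasis j)
        (WithLp.toLp 2 x : EuclideanSpace ℂ (Fin k)) := by
  rw [EuclideanSpace.inner_eq_star_dotProduct, EuclideanSpace.inner_eq_star_dotProduct]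
  have h1 := hA.mulVec_eigenvectorBasis j
  have h2 : star ((hA.eigenvectorBasis j).ofLp) ᵥ* A =
      (hA.eigenvalues j : ℂ) • star ((hA.eigenvectorBasis j).ofLp) := by
    have h3 := congrArg star h1
    rw [star_mulVec, hA.eq] at h3
    rw [h3]
    ext i
    simp
  show A.mulVec x ⬝ᵥ star (hA.eigenvectorBasis j).ofLp = _ * (x ⬝ᵥ star (hA.eigenvectorBasis j).ofLp)
  rw [dotProduct_comm, dotProduct_mulVec, h2, smul_dotProduct, smul_eq_mul, dotProduct_comm]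

/-- The maximum `M` of `|quad u A|` over unit vectors is attained (compactness); by polarization
`|re <y, A x>| ≤ M |x| |y|`, so `M > R`; then estimate `quad z A` near `u / 2`:
`|quad z A| ≥ M (1/4 - 1/16 - 1/256) ≥ M / 8`. -/
theorem exists_ball (A : Matrix (Fin k) (Fin k) ℂ) (hA : Aᴴ = A) (R : ℝ) (hR : 0 ≤ R)
    (h : ¬ opLe A R) :
    ∃ u : Fin k → ℂ, ∑ i, ‖u i‖ ^ 2 = 1 ∧
      ∀ z : Fin k → ℂ, ∑ i, ‖z i - u i / 2‖ ^ 2 ≤ (1 / 16) ^ 2 →
        ∑ i, ‖z i‖ ^ 2 ≤ 1 ∧ R / 8 ≤ |(quad z A).re| := by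
  have hH : A.IsHermitian := hA
  -- the norm of `A x` and the quadratic form in the eigenbasis
  have hn : ∀ x : Fin k → ℂ, ∑ i, ‖A.mulVec x i‖ ^ 2 =
      ∑ j, hH.eigenvalues j ^ 2 * ‖(inner ℂ (hH.eigenvectorBasis j)
        (WithLp.toLp 2 x : EuclideanSpace ℂ (Fin k)) : ℂ)‖ ^ 2 := by
    intro x
    rw [← det_norm_sq, ← hH.eigenvectorBasis.sum_sq_norm_inner_right]
    refine Finset.sum_congr rfl fun j _ => ?_
    rw [det_eig, norm_mul, mul_pow, Complex.norm_real, Real.norm_eq_abs, sq_abs]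
  have hx : ∀ x : Fin k → ℂ, ∑ i, ‖x i‖ ^ 2 =
      ∑ j, ‖(inner ℂ (hH.eigenvectorBasis j)
        (WithLp.toLp 2 x : EuclideanSpace ℂ (Fin k)) : ℂ)‖ ^ 2 := by
    intro x
    rw [← det_norm_sq, ← hH.eigenvectorBasis.sum_sq_norm_inner_right]
  have hq : ∀ x : Fin k → ℂ, quad x A =
      ((∑ j, hH.eigenvalues j * ‖(inner ℂ (hH.eigenvectorBasis j)
        (WithLp.toLp 2 x : EuclideanSpace ℂ (Fin k)) : ℂ)‖ ^ 2 : ℝ) : ℂ) := by
    intro x
    rw [det_quad, ← hH.eigenvectorBasis.sum_inner_mul_inner, Complex.ofReal_sum]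
    refine Finset.sum_congr rfl fun j _ => ?_
    rw [det_eig, ← inner_conj_symm, Complex.ofReal_mul, Complex.ofReal_pow, ← Complex.conj_mul']
    ring
  -- an eigenvalue larger than `R`
  obtain ⟨j1, hj1⟩ : ∃ j, R < |hH.eigenvalues j| := by
    by_contra hc
    push Not at hc
    refine h fun x => ?_
    rw [hn x, hx x, Finset.mul_sum]
    refine Finset.sum_le_sum fun j _ => mul_le_mul_of_nonneg_right ?_ (by positivity)
    rw [← sq_abs]
    exact pow_le_pow_left₀ (abs_nonneg _) (hc j) 2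
  obtain ⟨j0, -, hj0⟩ := Finset.exists_max_image Finset.univ (fun j => |hH.eigenvalues j|)
    ⟨j1, Finset.mem_univ _⟩
  have hMR : R < |hH.eigenvalues j0| := hj1.trans_le (hj0 j1 (Finset.mem_univ _))
  refine ⟨(hH.eigenvectorBasis j0).ofLp, ?_, fun z hz => ?_⟩
  · rw [← det_norm_sq]
    have := hH.eigenvectorBasis.orthonormal.1 j0
    show ‖hH.eigenvectorBasis j0‖ ^ 2 = 1
    rw [this]
    norm_num
  · obtain ⟨b, hb⟩ : ∃ b : OrthonormalBasis (Fin k) ℂ (EuclideanSpace ℂ (Fin k)),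
      b = hH.eigenvectorBasis := ⟨_, rfl⟩
    rw [← hb] at hz
    have hxz := hx z
    have hqz := hq z
    have hxd := hx (fun i => z i - (b j0).ofLp i / 2)
    rw [← hb] at hxz hqz hxd
    rw [hxd] at hz
    have hc : ∀ j, (inner ℂ (b j) (WithLp.toLp 2 z : EuclideanSpace ℂ (Fin k)) : ℂ) =
        inner ℂ (b j) (WithLp.toLp 2 (fun i => z i - (b j0).ofLp i / 2) :
          EuclideanSpace ℂ (Fin k)) + (if j = j0 then 1 / 2 else 0) := by
      intro j
      have h1 : (WithLp.toLp 2 z : EuclideanSpace ℂ (Fin k)) =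
          WithLp.toLp 2 (fun i => z i - (b j0).ofLp i / 2) + (1 / 2 : ℂ) • b j0 := by
        ext i
        simp
        ring
      rw [h1, inner_add_right, inner_smul_right, OrthonormalBasis.inner_eq_ite]
      congr 1
      split_ifs <;> simp
    obtain ⟨c, hcd⟩ : ∃ c : Fin k → ℂ, c = fun j => inner ℂ (b j)
        (WithLp.toLp 2 (fun i => z i - (b j0).ofLp i / 2) : EuclideanSpace ℂ (Fin k)) := ⟨_, rfl⟩
    have hc' : ∀ j, (inner ℂ (b j) (WithLp.toLp 2 z : EuclideanSpace ℂ (Fin k)) : ℂ) =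
        c j + (if j = j0 then 1 / 2 else 0) := fun j => by rw [hc, hcd]
    have hz' : ∑ j, ‖c j‖ ^ 2 ≤ (1 / 16) ^ 2 := by
      rw [hcd]
      exact hz
    have hsplit : ‖c j0‖ ^ 2 + ∑ j ∈ Finset.univ.erase j0, ‖c j‖ ^ 2 = ∑ j, ‖c j‖ ^ 2 :=
      Finset.add_sum_erase _ (fun j => ‖c j‖ ^ 2) (Finset.mem_univ j0)
    have hT0 : 0 ≤ ∑ j ∈ Finset.univ.erase j0, ‖c j‖ ^ 2 :=
      Finset.sum_nonneg fun j _ => by positivity
    obtain ⟨T, hT⟩ : ∃ T : ℝ, T = ∑ j ∈ Finset.univ.erase j0, ‖c j‖ ^ 2 := ⟨_, rfl⟩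
    rw [← hT] at hsplit hT0
    have hc0 : ‖c j0‖ ≤ 1 / 16 := by
      refine abs_le_of_sq_le_sq' ?_ (by norm_num) |>.2
      linarith
    have hTle : T ≤ (1 / 16) ^ 2 := by
      have : 0 ≤ ‖c j0‖ ^ 2 := by positivity
      linarith
    have hne : ∀ j ∈ Finset.univ.erase j0,
        (inner ℂ (b j) (WithLp.toLp 2 z : EuclideanSpace ℂ (Fin k)) : ℂ) = c j := by
      intro j hj
      rw [hc', if_neg (Finset.ne_of_mem_erase hj), add_zero]
    have h0 : (inner ℂ (b j0) (WithLp.toLp 2 z : EuclideanSpace ℂ (Fin k)) : ℂ) =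
        c j0 + 1 / 2 := by
      rw [hc', if_pos rfl]
    have hup : ‖c j0 + 1 / 2‖ ≤ 9 / 16 := by
      refine (norm_add_le _ _).trans ?_
      have : ‖(1 / 2 : ℂ)‖ = 1 / 2 := by norm_num
      rw [this]
      linarith
    have hlow : 7 / 16 ≤ ‖c j0 + 1 / 2‖ := by
      have h2 : ‖(1 / 2 : ℂ)‖ ≤ ‖c j0 + 1 / 2‖ + ‖c j0‖ := by
        have h3 : (1 / 2 : ℂ) = (c j0 + 1 / 2) - c j0 := by ring
        conv_lhs => rw [h3]
        exact norm_sub_le _ _
      have : ‖(1 / 2 : ℂ)‖ = 1 / 2 := by norm_num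
      rw [this] at h2
      linarith
    have hup2 : ‖c j0 + 1 / 2‖ ^ 2 ≤ (9 / 16) ^ 2 := pow_le_pow_left₀ (norm_nonneg _) hup 2
    have hlow2 : (7 / 16) ^ 2 ≤ ‖c j0 + 1 / 2‖ ^ 2 := pow_le_pow_left₀ (by norm_num) hlow 2
    constructor
    · rw [hxz, ← Finset.add_sum_erase _ _ (Finset.mem_univ j0), h0,
        Finset.sum_congr rfl fun j hj => by rw [hne j hj], ← hT]
      nlinarith
    · rw [hqz, Complex.ofReal_re, ← Finset.add_sum_erase _ _ (Finset.mem_univ j0), h0,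
        Finset.sum_congr rfl fun j hj => by rw [hne j hj]]
      have hE : |∑ j ∈ Finset.univ.erase j0, hH.eigenvalues j * ‖c j‖ ^ 2| ≤
          |hH.eigenvalues j0| * T := by
        rw [hT, Finset.mul_sum]
        refine (Finset.abs_sum_le_sum_abs _ _).trans (Finset.sum_le_sum fun j _ => ?_)
        rw [abs_mul, abs_of_nonneg (show (0 : ℝ) ≤ ‖c j‖ ^ 2 by positivity)]
        exact mul_le_mul_of_nonneg_right (hj0 j (Finset.mem_univ _)) (by positivity)
      have hF : |hH.eigenvalues j0| * (7 / 16) ^ 2 ≤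
          |hH.eigenvalues j0 * ‖c j0 + 1 / 2‖ ^ 2| := by
        rw [abs_mul, abs_of_nonneg (show (0 : ℝ) ≤ ‖c j0 + 1 / 2‖ ^ 2 by positivity)]
        exact mul_le_mul_of_nonneg_left hlow2 (abs_nonneg _)
      have hG : |hH.eigenvalues j0| * T ≤ |hH.eigenvalues j0| * (1 / 16) ^ 2 :=
        mul_le_mul_of_nonneg_left hTle (abs_nonneg _)
      have hK := abs_sub_abs_le_abs_add (hH.eigenvalues j0 * ‖c j0 + 1 / 2‖ ^ 2)
        (∑ j ∈ Finset.univ.erase j0, hH.eigenvalues j * ‖c j‖ ^ 2)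
      have hM0 := abs_nonneg (hH.eigenvalues j0)
      linarith

end P087.GU
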