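import Vale.Agent.Lib.P087.G.Defs

/-! P087 G/Vol: volumes of Euclidean balls in `Fin k → ℂ` (`Measure.addHaar_smul`). -/

open MeasureTheory
open scoped Pointwise

namespace P087.GU

variable {k : ℕ}

theorem vol_pos : 0 < volume {z : Fin k → ℂ | ∑ i, ‖z i‖ ^ 2 ≤ 1} := by
  have h1 : IsOpen {z : Fin k → ℂ | ∑ i, ‖z i‖ ^ 2 < 1} :=
    isOpen_lt (by fun_prop) continuous_const
  have h2 : {z : Fin k → ℂ | ∑ i, ‖z i‖ ^ 2 < 1}.Nonempty := ⟨0, by simp⟩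
  exact (h1.measure_pos volume h2).trans_le (measure_mono fun z hz => (le_of_lt (show ∑ i, ‖z i‖ ^ 2 < 1 from hz) :
    ∑ i, ‖z i‖ ^ 2 ≤ 1))

theorem vol_fin : volume {z : Fin k → ℂ | ∑ i, ‖z i‖ ^ 2 ≤ 1} < ⊤ := by
  have h1 : {z : Fin k → ℂ | ∑ i, ‖z i‖ ^ 2 ≤ 1} ⊆ Metric.closedBall 0 1 := by
    intro z hz
    rw [mem_closedBall_zero_iff, pi_norm_le_iff_of_nonneg zero_le_one]
    intro i
    have h2 : ‖z i‖ ^ 2 ≤ ∑ i, ‖z i‖ ^ 2 :=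
      Finset.single_le_sum (f := fun i => ‖z i‖ ^ 2) (fun i _ => by positivity)
        (Finset.mem_univ i)
    have h3 : ‖z i‖ ^ 2 ≤ 1 ^ 2 := by
      rw [one_pow]
      exact h2.trans hz
    exact (pow_le_pow_iff_left₀ (norm_nonneg _) zero_le_one two_ne_zero).1 h3
  exact (measure_mono h1).trans_lt (isCompact_closedBall (0 : Fin k → ℂ) 1).measure_lt_top

theorem vol_ball (u : Fin k → ℂ) (ρ : ℝ) (hρ : 0 < ρ) :
    volume {z : Fin k → ℂ | ∑ i, ‖z i - u i‖ ^ 2 ≤ ρ ^ 2} =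
      ENNReal.ofReal (ρ ^ (2 * k)) * volume {z : Fin k → ℂ | ∑ i, ‖z i‖ ^ 2 ≤ 1} := by
  have h1 : {z : Fin k → ℂ | ∑ i, ‖z i - u i‖ ^ 2 ≤ ρ ^ 2} =
      (fun z => z + (-u)) ⁻¹' (ρ • {z : Fin k → ℂ | ∑ i, ‖z i‖ ^ 2 ≤ 1}) := by
    ext z
    rw [Set.mem_preimage, Set.mem_smul_set_iff_inv_smul_mem₀ hρ.ne', Set.mem_ofPred_eq,
      Set.mem_ofPred_eq]
    have h2 : ∑ i, ‖(ρ⁻¹ • (z + -u)) i‖ ^ 2 = (ρ ^ 2)⁻¹ * ∑ i, ‖z i - u i‖ ^ 2 := by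
      rw [Finset.mul_sum]
      refine Finset.sum_congr rfl fun i _ => ?_
      rw [Pi.smul_apply, norm_smul, mul_pow, Pi.add_apply, Pi.neg_apply, ← sub_eq_add_neg,
        Real.norm_eq_abs, sq_abs, inv_pow]
    rw [h2, inv_mul_le_iff₀ (by positivity), mul_one]
  have h3 : Module.finrank ℝ (Fin k → ℂ) = 2 * k := by
    rw [Module.finrank_pi_fintype]
    simp [Complex.finrank_real_complex, mul_comm]
  rw [h1, measure_preimage_add_right, Measure.addHaar_smul, h3,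
    abs_of_nonneg (by positivity)]

end P087.GU
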