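import Vale.Agent.Lib.P087.G.Quad
import Vale.Agent.Lib.P087.G.Det
import Vale.Agent.Lib.P087.G.Vol

/-! P087 G/Norm: the norm bound for the Gaussian matrix, without nets: by Tonelli,
`P(norm > 32) * vol(ball of radius 1/16) ≤ ∫ over the unit ball of P(|quad x G| ≥ 4) dx`. -/

open MeasureTheory ProbabilityTheory Matrix MvPolynomial Filter Topology

namespace P087.GU

theorem isClosed_opLe (k : ℕ) (R : ℝ) :
    IsClosed {v : Fin k × Fin k → ℝ | opLe (herm v) R} := by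
  have h1 : {v : Fin k × Fin k → ℝ | opLe (herm v) R} =
      ⋂ x : Fin k → ℂ, {v | ∑ i, ‖(herm v).mulVec x i‖ ^ 2 ≤ R ^ 2 * ∑ i, ‖x i‖ ^ 2} := by
    ext v
    simp only [Set.mem_iInter]
    exact Iff.rfl
  rw [h1]
  refine isClosed_iInter fun x => isClosed_le ?_ continuous_const
  refine continuous_finsetSum _ fun i _ => ?_
  have h2 : Continuous fun v : Fin k × Fin k → ℝ => (herm v).mulVec x :=
    continuous_herm.matrix_mulVec continuous_const
  exact ((continuous_apply i).comp h2).norm.pow 2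

private theorem isClosed_big (k : ℕ) :
    IsClosed {p : (Fin k × Fin k → ℝ) × (Fin k → ℂ) |
      ∑ i, ‖p.2 i‖ ^ 2 ≤ 1 ∧ 4 ≤ |(quad p.2 (herm p.1)).re|} := by
  have c1 : IsClosed {p : (Fin k × Fin k → ℝ) × (Fin k → ℂ) | ∑ i, ‖p.2 i‖ ^ 2 ≤ 1} :=
    isClosed_le (by fun_prop) continuous_const
  have c2 : IsClosed {p : (Fin k × Fin k → ℝ) × (Fin k → ℂ) |
      4 ≤ |(quad p.2 (herm p.1)).re|} := by
    refine isClosed_le continuous_const ?_
    have h1 : Continuous fun p : (Fin k × Fin k → ℝ) × (Fin k → ℂ) =>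
        (herm p.1).mulVec p.2 :=
      (continuous_herm.comp continuous_fst).matrix_mulVec continuous_snd
    have h2 : Continuous fun p : (Fin k × Fin k → ℝ) × (Fin k → ℂ) => quad p.2 (herm p.1) := by
      unfold quad
      exact Continuous.dotProduct (continuous_star.comp continuous_snd) h1
    exact (Complex.continuous_re.comp h2).abs
  exact c1.inter c2

theorem norm_tail (k : ℕ) (hk : 0 < k) :
    (Measure.pi fun _ : Fin k × Fin k => gaussianReal 0 (1 / (k : NNReal)))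
      {v | ¬ opLe (herm v) 32} ≤ ENNReal.ofReal (2 * Real.exp (-(8 * k)) * 256 ^ k) := by
  obtain ⟨μ, hμ⟩ : ∃ μ : Measure (Fin k × Fin k → ℝ),
    μ = Measure.pi fun _ : Fin k × Fin k => gaussianReal 0 (1 / (k : NNReal)) := ⟨_, rfl⟩
  have hprob : IsProbabilityMeasure μ := by rw [hμ]; infer_instance
  have htail : ∀ x : Fin k → ℂ, ∑ i, ‖x i‖ ^ 2 ≤ 1 → μ {v | 4 ≤ |(quad x (herm v)).re|} ≤
      ENNReal.ofReal (2 * Real.exp (-(8 * k))) := by
    intro x hx
    rw [hμ]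
    exact tail_quad hk x hx
  rw [← hμ]
  obtain ⟨V, hV⟩ : ∃ V : ENNReal, V = volume {z : Fin k → ℂ | ∑ i, ‖z i‖ ^ 2 ≤ 1} := ⟨_, rfl⟩
  have hV0 : V ≠ 0 := by rw [hV]; exact vol_pos.ne'
  have hVt : V ≠ ⊤ := by rw [hV]; exact vol_fin.ne
  obtain ⟨E, hE⟩ : ∃ E : Set (Fin k × Fin k → ℝ), E = {v | ¬ opLe (herm v) 32} := ⟨_, rfl⟩
  have hEm : MeasurableSet E := by
    rw [hE]
    exact (isClosed_opLe k 32).measurableSet.compl
  rw [← hE]
  obtain ⟨S, hS⟩ : ∃ S : Set ((Fin k × Fin k → ℝ) × (Fin k → ℂ)),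
    S = {p | ∑ i, ‖p.2 i‖ ^ 2 ≤ 1 ∧ 4 ≤ |(quad p.2 (herm p.1)).re|} := ⟨_, rfl⟩
  have hSm : MeasurableSet S := by
    rw [hS]
    exact (isClosed_big k).measurableSet
  -- lower bound
  have hlow : ∀ v ∈ E, ENNReal.ofReal ((1 / 16) ^ (2 * k)) * V ≤
      volume (Prod.mk v ⁻¹' S) := by
    intro v hv
    rw [hE] at hv
    obtain ⟨u, hu, hball⟩ := exists_ball (herm v) (herm_conjTranspose v) 32 (by norm_num) hv
    have h1 := vol_ball (fun i => u i / 2) (1 / 16) (by norm_num)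
    rw [hV, ← h1]
    refine measure_mono fun z hz => ?_
    obtain ⟨h2, h3⟩ := hball z hz
    rw [Set.mem_preimage, hS]
    refine ⟨h2, ?_⟩
    have h4 : (32 : ℝ) / 8 = 4 := by norm_num
    rw [h4] at h3
    exact h3
  -- upper bound
  have hup : ∀ z : Fin k → ℂ, μ ((fun v => (v, z)) ⁻¹' S) ≤
      {z : Fin k → ℂ | ∑ i, ‖z i‖ ^ 2 ≤ 1}.indicator
        (fun _ => ENNReal.ofReal (2 * Real.exp (-(8 * k)))) z := by
    intro z
    by_cases hz : ∑ i, ‖z i‖ ^ 2 ≤ 1
    · rw [Set.indicator_of_mem (show z ∈ {z : Fin k → ℂ | ∑ i, ‖z i‖ ^ 2 ≤ 1} from hz)]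
      refine le_trans (measure_mono fun v hv => ?_) (htail z hz)
      rw [Set.mem_preimage, hS] at hv
      exact hv.2
    · have h1 : (fun v => (v, z)) ⁻¹' S = ∅ := by
        ext v
        rw [Set.mem_preimage, hS]
        simp only [Set.mem_empty_iff_false, iff_false]
        exact fun h => hz h.1
      rw [h1, measure_empty]
      exact zero_le
  have hbm : MeasurableSet {z : Fin k → ℂ | ∑ i, ‖z i‖ ^ 2 ≤ 1} :=
    (isClosed_le (by fun_prop) continuous_const).measurableSet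
  have hmain : ENNReal.ofReal ((1 / 16) ^ (2 * k)) * V * μ E ≤
      ENNReal.ofReal (2 * Real.exp (-(8 * k))) * V := by
    calc ENNReal.ofReal ((1 / 16) ^ (2 * k)) * V * μ E
        = ∫⁻ _ in E, ENNReal.ofReal ((1 / 16) ^ (2 * k)) * V ∂μ := by
          rw [setLIntegral_const]
      _ ≤ ∫⁻ v in E, volume (Prod.mk v ⁻¹' S) ∂μ := setLIntegral_mono' hEm hlow
      _ ≤ ∫⁻ v, volume (Prod.mk v ⁻¹' S) ∂μ := setLIntegral_le_lintegral _ _
      _ = (μ.prod volume) S := (Measure.prod_apply hSm).symm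
      _ = ∫⁻ z, μ ((fun v => (v, z)) ⁻¹' S) := Measure.prod_apply_symm hSm
      _ ≤ ∫⁻ z, {z : Fin k → ℂ | ∑ i, ‖z i‖ ^ 2 ≤ 1}.indicator
            (fun _ => ENNReal.ofReal (2 * Real.exp (-(8 * k)))) z := lintegral_mono hup
      _ = ENNReal.ofReal (2 * Real.exp (-(8 * k))) * V := by
          rw [lintegral_indicator_const hbm, hV]
  have h16 : ENNReal.ofReal ((1 / 16) ^ (2 * k)) * ENNReal.ofReal (256 ^ k) = 1 := by
    rw [← ENNReal.ofReal_mul (by positivity), pow_mul, ← mul_pow]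
    norm_num
  calc μ E = (ENNReal.ofReal ((1 / 16) ^ (2 * k)) * ENNReal.ofReal (256 ^ k)) * (V * V⁻¹) * μ E := by
        rw [h16, ENNReal.mul_inv_cancel hV0 hVt, one_mul, one_mul]
    _ = (ENNReal.ofReal ((1 / 16) ^ (2 * k)) * V * μ E) * (ENNReal.ofReal (256 ^ k) * V⁻¹) := by ring
    _ ≤ (ENNReal.ofReal (2 * Real.exp (-(8 * k))) * V) * (ENNReal.ofReal (256 ^ k) * V⁻¹) := by
        gcongr
    _ = ENNReal.ofReal (2 * Real.exp (-(8 * k))) * ENNReal.ofReal (256 ^ k) * (V * V⁻¹) := by ring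
    _ = ENNReal.ofReal (2 * Real.exp (-(8 * k)) * 256 ^ k) := by
        rw [ENNReal.mul_inv_cancel hV0 hVt, mul_one, ← ENNReal.ofReal_mul (by positivity)]

theorem prob_norm {ι : Type} [Fintype ι] [DecidableEq ι] (i : ι) :
    Tendsto (fun k : ℕ => gm ι k {v | ¬ opLe (herm (v i)) 32}) atTop (𝓝 0) := by
  have hq : Real.exp (-8) * 256 < 1 := by
    have h1 : (2.7 : ℝ) < Real.exp 1 := by
      have := Real.exp_one_gt_d9
      linarith
    have h2 : Real.exp 8 = Real.exp 1 ^ 8 := by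
      rw [← Real.exp_nat_mul]
      norm_num
    have h3 : (256 : ℝ) < Real.exp 8 := by
      rw [h2]
      calc (256 : ℝ) < 2.7 ^ 8 := by norm_num
        _ ≤ Real.exp 1 ^ 8 := pow_le_pow_left₀ (by norm_num) h1.le 8
    rw [Real.exp_neg, inv_mul_lt_iff₀ (Real.exp_pos 8), mul_one]
    exact h3
  have hlim : Tendsto (fun k : ℕ => ENNReal.ofReal (2 * (Real.exp (-8) * 256) ^ k)) atTop (𝓝 0) := by
    have h1 : Tendsto (fun k : ℕ => 2 * (Real.exp (-8) * 256) ^ k) atTop (𝓝 (2 * 0)) :=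
      (tendsto_pow_atTop_nhds_zero_of_lt_one (by positivity) hq).const_mul 2
    rw [mul_zero] at h1
    have h2 := ENNReal.tendsto_ofReal h1
    rwa [ENNReal.ofReal_zero] at h2
  refine tendsto_of_tendsto_of_tendsto_of_le_of_le' tendsto_const_nhds hlim
    (Eventually.of_forall fun _ => zero_le) ?_
  filter_upwards [eventually_gt_atTop 0] with k hk
  have h1 : gm ι k {v | ¬ opLe (herm (v i)) 32} =
      (Measure.pi fun _ : Fin k × Fin k => gaussianReal 0 (1 / (k : NNReal)))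
        {v | ¬ opLe (herm v) 32} := by
    unfold gm
    have h2 := measurePreserving_eval
      (fun _ : ι => Measure.pi fun _ : Fin k × Fin k => gaussianReal 0 (1 / (k : NNReal))) i
    exact h2.measure_preimage (isClosed_opLe k 32).measurableSet.compl.nullMeasurableSet
  rw [h1]
  refine (norm_tail k hk).trans (le_of_eq ?_)
  congr 1
  rw [mul_pow, ← Real.exp_nat_mul, mul_assoc]
  congr 3
  ring

end P087.GU
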