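import Vale.Agent.Lib.P087.G.Prob
import Vale.Agent.Lib.P087.G.Norm
import Vale.Agent.Lib.P087.G.Dens

/-! P087 G/Main: volume of the good set (union bound over the finitely many words). -/

open MeasureTheory ProbabilityTheory Matrix MvPolynomial Filter Topology

namespace P087.GU

theorem continuous_mw_herm {ι : Type} {k : ℕ} (w : List ι) :
    Continuous (fun v : ι → Fin k × Fin k → ℝ => mw (fun i => herm (v i)) w) := by
  induction w with
  | nil => simpa [mw] using continuous_const
  | cons i w ih =>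
    have h : (fun v : ι → Fin k × Fin k → ℝ => mw (fun i => herm (v i)) (i :: w)) =
        fun v => herm (v i) * mw (fun i => herm (v i)) w := by
      funext v
      simp [mw]
    rw [h]
    exact (continuous_herm.comp (continuous_apply i)).matrix_mul ih

theorem continuous_trk_mw {ι : Type} {k : ℕ} (w : List ι) :
    Continuous (fun v : ι → Fin k × Fin k → ℝ => trk (mw (fun i => herm (v i)) w)) := by
  unfold trk
  exact ((continuous_mw_herm w).matrix_trace).div_const _

theorem measurableSet_good {ι : Type} [Fintype ι] (tau : List ι → ℝ) (M : ℕ) (ε : ℝ) (k : ℕ) :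
    MeasurableSet {v : ι → Fin k × Fin k → ℝ | (∀ i, opLe (herm (v i)) 32) ∧
      ∀ w : List ι, w.length ≤ M → ‖trk (mw (fun i => herm (v i)) w) - tau w‖ < ε} := by
  have h1 : MeasurableSet {v : ι → Fin k × Fin k → ℝ | ∀ i, opLe (herm (v i)) 32} := by
    have h : {v : ι → Fin k × Fin k → ℝ | ∀ i, opLe (herm (v i)) 32} =
        ⋂ i, (fun v : ι → Fin k × Fin k → ℝ => v i) ⁻¹' {v | opLe (herm v) 32} := by
      ext v
      simp
    rw [h]
    exact (isClosed_iInter fun i =>
      (isClosed_opLe k 32).preimage (continuous_apply i)).measurableSet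
  have h2 : MeasurableSet {v : ι → Fin k × Fin k → ℝ | ∀ w : List ι, w.length ≤ M →
      ‖trk (mw (fun i => herm (v i)) w) - tau w‖ < ε} := by
    have h : {v : ι → Fin k × Fin k → ℝ | ∀ w : List ι, w.length ≤ M →
        ‖trk (mw (fun i => herm (v i)) w) - tau w‖ < ε} =
        ⋂ w : List ι, {v | w.length ≤ M → ‖trk (mw (fun i => herm (v i)) w) - tau w‖ < ε} := by
      ext v
      simp
    rw [h]
    refine MeasurableSet.iInter fun w => ?_
    by_cases hw : w.length ≤ M
    · simp only [hw, forall_const]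
      exact (isOpen_lt (((continuous_trk_mw w).sub continuous_const).norm)
        continuous_const).measurableSet
    · simp [hw]
  exact h1.inter h2

theorem gue_main {ι : Type} [Fintype ι] [DecidableEq ι] (tau : List ι → ℝ) (h0 : tau [] = 1)
    (h1 : ∀ i w, tau (i :: w) = ((splits i w).map fun q => tau q.1 * tau q.2).sum)
    (M : ℕ) (ε : ℝ) (hε : 0 < ε) :
    ∀ᶠ k : ℕ in atTop,
      ENNReal.ofReal (Real.sqrt (2 * Real.pi / k) ^ (Fintype.card ι * k ^ 2) / 2) ≤
        volume {v : ι → Fin k × Fin k → ℝ | (∀ i, opLe (herm (v i)) 32) ∧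
          ∀ w : List ι, w.length ≤ M →
            ‖trk (mw (fun i => herm (v i)) w) - tau w‖ < ε} := by
  have hfin : {w : List ι | w.length ≤ M}.Finite := List.finite_length_le ι M
  set W : Finset (List ι) := hfin.toFinset with hW
  have hlim : Tendsto (fun k : ℕ => (∑ i : ι, gm ι k {v | ¬ opLe (herm (v i)) 32}) +
      ∑ w ∈ W, gm ι k {v | ε ≤ ‖trk (mw (fun i => herm (v i)) w) - tau w‖}) atTop (𝓝 0) := by
    have ha : Tendsto (fun k : ℕ => ∑ i : ι, gm ι k {v | ¬ opLe (herm (v i)) 32}) atTop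
        (𝓝 (∑ _i : ι, 0)) := tendsto_finsetSum _ fun i _ => prob_norm i
    have hb : Tendsto (fun k : ℕ => ∑ w ∈ W,
        gm ι k {v | ε ≤ ‖trk (mw (fun i => herm (v i)) w) - tau w‖}) atTop
        (𝓝 (∑ _w ∈ W, 0)) := tendsto_finsetSum _ fun w _ => prob_word tau h0 h1 w ε hε
    simpa using ha.add hb
  have hev := hlim.eventually (gt_mem_nhds (show (0 : ENNReal) < 1 / 2 by simp))
  filter_upwards [hev, eventually_gt_atTop 0] with k hk hk0
  set S : Set (ι → Fin k × Fin k → ℝ) := {v | (∀ i, opLe (herm (v i)) 32) ∧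
      ∀ w : List ι, w.length ≤ M →
        ‖trk (mw (fun i => herm (v i)) w) - tau w‖ < ε} with hS
  have hc : gm ι k Sᶜ ≤ (∑ i : ι, gm ι k {v | ¬ opLe (herm (v i)) 32}) +
      ∑ w ∈ W, gm ι k {v | ε ≤ ‖trk (mw (fun i => herm (v i)) w) - tau w‖} := by
    have hsub : Sᶜ ⊆ (⋃ i : ι, {v : ι → Fin k × Fin k → ℝ | ¬ opLe (herm (v i)) 32}) ∪
        ⋃ w ∈ W, {v : ι → Fin k × Fin k → ℝ |
          ε ≤ ‖trk (mw (fun i => herm (v i)) w) - tau w‖} := by
      intro v hv
      simp only [hS, Set.mem_compl_iff, Set.mem_ofPred_eq, not_and_or, not_forall, not_lt] at hv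
      rcases hv with ⟨i, hi⟩ | ⟨w, hw, hwε⟩
      · exact Or.inl (Set.mem_iUnion.2 ⟨i, hi⟩)
      · refine Or.inr (Set.mem_iUnion₂.2 ⟨w, ?_, hwε⟩)
        rw [hW, Set.Finite.mem_toFinset]
        exact hw
    refine (measure_mono hsub).trans ((measure_union_le _ _).trans (add_le_add ?_ ?_))
    · exact measure_iUnion_fintype_le _ _
    · exact measure_biUnion_finset_le _ _
  have hhalf : (1 / 2 : ENNReal) ≤ gm ι k S := by
    have hu : (1 : ENNReal) ≤ gm ι k S + gm ι k Sᶜ := by
      calc (1 : ENNReal) = gm ι k Set.univ := (measure_univ (μ := gm ι k)).symm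
        _ = gm ι k (S ∪ Sᶜ) := by rw [Set.union_compl_self]
        _ ≤ _ := measure_union_le _ _
    have hlt : gm ι k Sᶜ ≤ 1 / 2 := hc.trans hk.le
    by_contra hcon
    push Not at hcon
    have h3 : gm ι k S + gm ι k Sᶜ < 1 / 2 + 1 / 2 :=
      ENNReal.add_lt_add_of_lt_of_le (ne_top_of_le_ne_top (by simp) hlt) hcon hlt
    rw [ENNReal.add_halves] at h3
    exact absurd (hu.trans_lt h3) (lt_irrefl _)
  have hle := gm_le k hk0 S (measurableSet_good tau M ε k)
  have hkr : (0 : ℝ) < k := by exact_mod_cast hk0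
  set n := Fintype.card ι * k ^ 2 with hn
  have hprod : Real.sqrt (2 * Real.pi / k) ^ n * Real.sqrt (k / (2 * Real.pi)) ^ n = 1 := by
    rw [← mul_pow, ← Real.sqrt_mul (by positivity)]
    have : 2 * Real.pi / k * (k / (2 * Real.pi)) = 1 := by
      field_simp
    rw [this, Real.sqrt_one, one_pow]
  calc ENNReal.ofReal (Real.sqrt (2 * Real.pi / k) ^ n / 2)
      = ENNReal.ofReal (Real.sqrt (2 * Real.pi / k) ^ n) * (1 / 2) := by
        rw [div_eq_mul_one_div, ENNReal.ofReal_mul (by positivity)]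
        congr 1
        rw [ENNReal.ofReal_div_of_pos (by norm_num)]
        simp
    _ ≤ ENNReal.ofReal (Real.sqrt (2 * Real.pi / k) ^ n) *
        (ENNReal.ofReal (Real.sqrt (k / (2 * Real.pi)) ^ n) * volume S) := by
        gcongr
        exact hhalf.trans hle
    _ = volume S := by
        rw [← mul_assoc, ← ENNReal.ofReal_mul (by positivity), hprod, ENNReal.ofReal_one, one_mul]

end P087.GU
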