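import Vale.Agent.Lib.P087.Stmt
import Vale.Agent.Lib.P087.W.Ssum
import Vale.Agent.Lib.P087.G.Main

/-! P087 G/Bridge: `GU.gue_main` in the notation of Stmt.lean. -/

open MeasureTheory Filter Topology

namespace P087

/-- normalized trace of a word in the matrices with coordinates `v` -/
noncomputable def tw {ι : Type} {k : ℕ} (v : ι → Fin k → Fin k → ℝ) (w : List ι) : ℂ :=
  (k : ℂ)⁻¹ * Matrix.trace ((w.map fun j => herm k (v j)).prod)

/-- operator norm -/
noncomputable def nrm {k : ℕ} (A : Matrix (Fin k) (Fin k) ℂ) : ℝ :=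
  ‖Matrix.toEuclideanCLM (n := Fin k) (𝕜 := ℂ) A‖

private theorem Bridge_herm {k : ℕ} (v : Fin k → Fin k → ℝ) :
    GU.herm (fun p : Fin k × Fin k => v p.1 p.2) = herm k v := by
  ext i j
  unfold GU.herm herm
  simp only
  split_ifs
  · rfl
  · rw [mul_comm Complex.I]
  · rw [mul_comm Complex.I]

private theorem Bridge_nrm {k : ℕ} (A : Matrix (Fin k) (Fin k) ℂ) (R : ℝ) (hR : 0 ≤ R)
    (h : GU.opLe A R) : nrm A ≤ R := by
  unfold nrm
  refine ContinuousLinearMap.opNorm_le_bound _ hR fun x => ?_
  have h1 := h (WithLp.ofLp x)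
  have h2 : ‖Matrix.toEuclideanCLM (n := Fin k) (𝕜 := ℂ) A x‖ ^ 2 ≤ (R * ‖x‖) ^ 2 := by
    rw [mul_pow, EuclideanSpace.norm_sq_eq, EuclideanSpace.norm_sq_eq]
    exact h1
  exact (pow_le_pow_iff_left₀ (norm_nonneg _) (by positivity) two_ne_zero).1 h2

private theorem Bridge_splits {ι : Type} [DecidableEq ι] (i : ι) (f : List ι → List ι → ℝ)
    (w : List ι) : ((GU.splits i w).map fun q => f q.1 q.2).sum = ssum i f w := by
  induction w generalizing f with
  | nil => simp [GU.splits, ssum_nil]
  | cons a w ih =>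
    rw [ssum_cons, ← ih (fun u v => f (a :: u) v)]
    have h0 : GU.splits i (a :: w) = (if i = a then [([], w)] else []) ++
      (GU.splits i w).map (fun q => (a :: q.1, q.2)) := rfl
    rw [h0, List.map_append, List.sum_append, List.map_map]
    congr 1
    by_cases h : i = a
    · simp [h]
    · simp [h, Ne.symm h]

private def Bridge_eq (k : ℕ) : (Fin k → Fin k → ℝ) ≃ᵐ (Fin k × Fin k → ℝ) where
  toFun v p := v p.1 p.2
  invFun w a b := w (a, b)
  left_inv _ := rfl
  right_inv _ := rfl
  measurable_toFun := by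
    rw [measurable_pi_iff]
    intro p
    exact (measurable_pi_apply p.2).comp (measurable_pi_apply p.1)
  measurable_invFun := by
    rw [measurable_pi_iff]
    intro a
    rw [measurable_pi_iff]
    intro b
    exact measurable_pi_apply (a, b)

private theorem Bridge_mp (k : ℕ) : MeasurePreserving (Bridge_eq k) volume volume := by
  refine ⟨(Bridge_eq k).measurable, ?_⟩
  symm
  refine Measure.pi_eq fun s hs => ?_
  rw [(Bridge_eq k).map_apply]
  have h : (Bridge_eq k) ⁻¹' Set.univ.pi s =
      Set.univ.pi fun a => Set.univ.pi fun b => s (a, b) := by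
    ext v
    constructor
    · intro hv a _ b _
      exact hv (a, b) trivial
    · intro hv p _
      exact hv p.1 trivial p.2 trivial
  rw [h, volume_pi_pi, Fintype.prod_prod_type]
  refine Finset.prod_congr rfl fun a _ => ?_
  rw [volume_pi_pi]

theorem gue_curried {ι : Type} [Fintype ι] [DecidableEq ι] (tau : List ι → ℝ) (h0 : tau [] = 1)
    (h1 : ∀ i w, tau (i :: w) = ssum i (fun a b => tau a * tau b) w)
    (M : ℕ) (ε : ℝ) (hε : 0 < ε) :
    ∀ᶠ k : ℕ in atTop,
      ENNReal.ofReal (Real.sqrt (2 * Real.pi / k) ^ (Fintype.card ι * k ^ 2) / 2) ≤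
        volume {v : ι → Fin k → Fin k → ℝ | (∀ i, nrm (herm k (v i)) ≤ 32) ∧
          ∀ w : List ι, w.length ≤ M → ‖tw v w - tau w‖ < ε} := by
  have h := GU.gue_main tau h0 (fun i w => by rw [h1, ← Bridge_splits]) M ε hε
  filter_upwards [h] with k hk
  refine hk.trans ?_
  let e : (ι → Fin k → Fin k → ℝ) ≃ᵐ (ι → Fin k × Fin k → ℝ) :=
    MeasurableEquiv.piCongrRight fun _ => Bridge_eq k
  have he : MeasurePreserving e volume volume :=
    volume_preserving_pi fun _ => Bridge_mp k
  rw [← he.measure_preimage_equiv]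
  refine measure_mono fun v hv => ?_
  have hv' : ∀ i, GU.herm (e v i) = herm k (v i) := fun i => Bridge_herm (v i)
  refine ⟨fun i => ?_, fun w hw => ?_⟩
  · have h2 := hv.1 i
    rw [hv'] at h2
    exact Bridge_nrm _ _ (by norm_num) h2
  · have h2 := hv.2 w hw
    have h3 : GU.trk (GU.mw (fun i => GU.herm (e v i)) w) = tw v w := by
      unfold GU.trk GU.mw tw
      rw [div_eq_inv_mul]
      congr 4
      funext i
      exact hv' i
    rw [h3] at h2
    exact h2

end P087
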