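import Vale.Agent.Lib.P087.G.ChiGtA
import Vale.Agent.Lib.P087.G.Main

/-! P087 G/ChiGt: `χ(X) > -∞` (helper96). -/

open MeasureTheory Filter

namespace P087

variable {H : Type} [NormedAddCommGroup H] [InnerProductSpace ℂ H] [CompleteSpace H]
variable {T : TracialVN H} {r : ℕ}

/-- uncurrying of the coordinates -/
def unc (κ : Type) (k : ℕ) : (κ → Fin k → Fin k → ℝ) ≃ᵐ (κ → Fin k × Fin k → ℝ) where
  toFun v i p := v i p.1 p.2
  invFun u i a b := u i (a, b)
  left_inv v := rfl
  right_inv u := rfl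
  measurable_toFun := by
    refine measurable_pi_iff.2 fun i => measurable_pi_iff.2 fun p => ?_
    exact (measurable_pi_apply p.2).comp ((measurable_pi_apply p.1).comp (measurable_pi_apply i))
  measurable_invFun := by
    refine measurable_pi_iff.2 fun i => measurable_pi_iff.2 fun a => measurable_pi_iff.2 fun b => ?_
    exact (measurable_pi_apply (a, b)).comp (measurable_pi_apply i)

theorem unc1_preserving (k : ℕ) :
    MeasurePreserving (fun (v : Fin k → Fin k → ℝ) (p : Fin k × Fin k) => v p.1 p.2)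
      volume volume := by
  have hm : Measurable (fun (v : Fin k → Fin k → ℝ) (p : Fin k × Fin k) => v p.1 p.2) := by
    refine measurable_pi_iff.2 fun p => ?_
    exact (measurable_pi_apply p.2).comp (measurable_pi_apply p.1)
  refine ⟨hm, ?_⟩
  refine (Measure.pi_eq fun s hs => ?_).symm
  rw [Measure.map_apply hm (MeasurableSet.univ_pi hs)]
  have hset : (fun (v : Fin k → Fin k → ℝ) (p : Fin k × Fin k) => v p.1 p.2) ⁻¹'
      (Set.pi Set.univ s)
      = Set.pi Set.univ (fun i => Set.pi Set.univ fun j => s (i, j)) := by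
    ext v
    simp only [Set.mem_preimage, Set.mem_pi, Set.mem_univ, forall_const, Prod.forall]
  rw [hset, volume_pi_pi]
  simp_rw [volume_pi_pi]
  rw [Fintype.prod_prod_type]

theorem unc_preserving (κ : Type) [Fintype κ] (k : ℕ) :
    MeasurePreserving (unc κ k) volume volume :=
  volume_preserving_pi (f := fun _ : κ =>
    fun (v : Fin k → Fin k → ℝ) (p : Fin k × Fin k) => v p.1 p.2) fun _ => unc1_preserving k

theorem herm_unc (k : ℕ) (v : Fin k → Fin k → ℝ) :
    GU.herm (fun p : Fin k × Fin k => v p.1 p.2) = herm k v := by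
  ext i j
  simp only [GU.herm, herm]
  split_ifs
  · rfl
  · rw [mul_comm]
  · rw [mul_comm]

theorem norm_le_of_opLe {k : ℕ} (A : Matrix (Fin k) (Fin k) ℂ) (R : ℝ) (hR : 0 ≤ R)
    (h : GU.opLe A R) : ‖Matrix.toEuclideanCLM (n := Fin k) (𝕜 := ℂ) A‖ ≤ R := by
  refine ContinuousLinearMap.opNorm_le_bound _ hR fun x => ?_
  refine le_of_sq_le_sq ?_ (by positivity)
  rw [mul_pow, EuclideanSpace.norm_sq_eq, EuclideanSpace.norm_sq_eq]
  exact h (WithLp.ofLp x)

theorem splits_sum {κ : Type} [DecidableEq κ] (i : κ) (w : List κ)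
    (F : List κ → List κ → ℝ) :
    ((GU.splits i w).map fun q => F q.1 q.2).sum = ssum i F w := by
  induction w generalizing F with
  | nil => rw [ssum_nil]; rfl
  | cons j w ih =>
    rw [ssum_cons, ← ih, GU.splits, List.map_append, List.sum_append, List.map_map]
    congr 1
    by_cases h : i = j
    · simp [h]
    · simp [h, Ne.symm h]

theorem good_of_gue (k M : ℕ) (ε : ℝ) :
    unc (K r) k ⁻¹' {v : K r → Fin k × Fin k → ℝ | (∀ i, GU.opLe (GU.herm (v i)) 32) ∧
          ∀ w : List (K r), w.length ≤ M →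
            ‖GU.trk (GU.mw (fun i => GU.herm (v i)) w) - (mom w : ℝ)‖ < ε} ⊆ Good r k M ε := by
  rintro v ⟨h1, h2⟩
  have hh : ∀ i, GU.herm (unc (K r) k v i) = herm k (v i) := fun i => herm_unc k (v i)
  refine ⟨fun i => ?_, fun w hw => ?_⟩
  · have h3 := h1 i
    rw [hh] at h3
    exact norm_le_of_opLe _ _ (by norm_num) h3
  · have h3 := h2 w hw
    simp only [hh] at h3
    rw [GU.trk, div_eq_inv_mul] at h3
    exact h3

/-- (B): `χ(X) > -∞` -/
theorem chi_gt_bot (F : FockSys T (Let r)) : ⊥ < chi T (Xop F 0) := by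
  refine chi_gt_bot_of F fun M ε hε => ?_
  have h := GU.gue_main (ι := K r) mom mom_nil
    (fun i w => by rw [mom_cons, splits_sum i w fun a b => mom a * mom b]) M ε hε
  filter_upwards [h] with k hk
  refine hk.trans ?_
  calc _ = volume (unc (K r) k ⁻¹' _) :=
        ((unc_preserving (K r) k).measure_preimage_equiv (f := unc (K r) k) _).symm
    _ ≤ _ := measure_mono (good_of_gue k M ε)

end P087
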