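import Vale.Agent.Lib.P087.G.ChiLe
import Vale.Agent.Lib.P087.P.Op

/-! P087 G/ChiGtA: `χ(X) > -∞` from the asymptotic freeness of Gaussian matrices (helper96). -/

open MeasureTheory Filter

namespace P087

variable {H : Type} [NormedAddCommGroup H] [InnerProductSpace ℂ H] [CompleteSpace H]
variable {T : TracialVN H} {r : ℕ}

/-- monomials of `X_i` in the letters `K r` -/
def mz : K r → List (List (K r))
  | Sum.inl a => [[Sum.inl a]]
  | Sum.inr (a, b, c) => [[Sum.inl a, Sum.inl b, Sum.inl c], [Sum.inl c, Sum.inl b, Sum.inl a],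
      [Sum.inr (a, b, c)]]

/-- the words occurring in `X_w` -/
def expw : List (K r) → List (List (K r))
  | [] => [[]]
  | i :: w => (mz i).flatMap fun m => (expw w).map fun Q => m ++ Q

theorem sum_flatMap_mul {R α : Type*} [Ring R] (L : List (List α)) (M : List (List α))
    (A : α → R) :
    ((L.flatMap fun a => M.map fun b => a ++ b).map fun Q => (Q.map A).prod).sum
      = (L.map fun a => (a.map A).prod).sum * (M.map fun b => (b.map A).prod).sum := by
  induction L with
  | nil => simp
  | cons a L ih =>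
    rw [List.flatMap_cons, List.map_append, List.sum_append, ih, List.map_cons, List.sum_cons,
      add_mul, List.map_map]
    congr 1
    rw [← List.sum_map_mul_left]
    congr 1
    refine List.map_congr_left fun b _ => ?_
    rw [Function.comp_apply, List.map_append, List.prod_append]

theorem prod_expw {R : Type*} [Ring R] (A A' : K r → R)
    (hA : ∀ i, A' i = ((mz i).map fun m => (m.map A).prod).sum) (w : List (K r)) :
    (w.map A').prod = ((expw w).map fun Q => (Q.map A).prod).sum := by
  induction w with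
  | nil => simp [expw]
  | cons i w ih =>
    rw [List.map_cons, List.prod_cons, hA, ih, ← sum_flatMap_mul]
    rfl

theorem mz_length (i : K r) : (mz i).length ≤ 3 := by
  rcases i with a | ⟨a, b, c⟩ <;> simp [mz]

theorem mz_mem_length (i : K r) : ∀ m ∈ mz i, m.length ≤ 3 := by
  rcases i with a | ⟨a, b, c⟩
  · intro m hm
    simp only [mz, List.mem_singleton] at hm
    subst hm
    simp
  · intro m hm
    simp only [mz, List.mem_cons, List.not_mem_nil, or_false] at hm
    rcases hm with h | h | h <;> subst h <;> simp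

theorem expw_length (w : List (K r)) : (expw w).length ≤ 3 ^ w.length := by
  induction w with
  | nil => simp [expw]
  | cons i w ih =>
    have h1 : (expw (i :: w)).length = (mz i).length * (expw w).length := by
      simp [expw, List.length_flatMap]
    rw [h1, List.length_cons, pow_succ, mul_comm]
    exact Nat.mul_le_mul ih (mz_length i)

theorem expw_mem_length (w : List (K r)) : ∀ Q ∈ expw w, Q.length ≤ 3 * w.length := by
  induction w with
  | nil =>
    intro Q hQ
    simp only [expw, List.mem_singleton] at hQ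
    subst hQ
    simp
  | cons i w ih =>
    intro Q hQ
    simp only [expw, List.mem_flatMap, List.mem_map] at hQ
    obtain ⟨m, hm, Q', hQ', rfl⟩ := hQ
    have h1 := mz_mem_length i m hm
    have h2 := ih Q' hQ'
    rw [List.length_append, List.length_cons]
    omega

theorem list_diff_le {α : Type*} (L : List α) (f g : α → ℂ) (ε : ℝ)
    (h : ∀ a ∈ L, ‖f a - g a‖ ≤ ε) : ‖(L.map f).sum - (L.map g).sum‖ ≤ L.length * ε := by
  induction L with
  | nil => simp
  | cons a L ih =>
    rw [List.map_cons, List.map_cons, List.sum_cons, List.sum_cons, List.length_cons]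
    have h1 := h a List.mem_cons_self
    have h2 := ih (fun b hb => h b (List.mem_cons_of_mem _ hb))
    have h3 : f a + (L.map f).sum - (g a + (L.map g).sum)
        = (f a - g a) + ((L.map f).sum - (L.map g).sum) := by ring
    rw [h3]
    refine (norm_add_le _ _).trans ?_
    push_cast
    linarith

/-- the trace of a word in the `s`, `x` letters -/
theorem tr_word_inl (F : FockSys T (Let r)) (Q : List (K r)) :
    T.tr (wordOp (fun i => F.y (Sum.inl i)) Q) = ((mom (Q.map (Sum.inl : K r → Let r)) : ℝ) : ℂ) := by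
  have h1 : wordOp (fun i => F.y (Sum.inl i)) Q = wordOp F.y (Q.map Sum.inl) := by
    simp [wordOp, List.map_map, Function.comp_def]
  rw [h1, TracialVN.tr, mom, ← inner_e_word F, F.e_nil]

theorem ssum_map_inl {κ κ' : Type} [DecidableEq κ] [DecidableEq κ'] (i : κ)
    (F : List (κ ⊕ κ') → List (κ ⊕ κ') → ℝ) (w : List κ) :
    ssum (Sum.inl i) F (w.map Sum.inl) = ssum i (fun u v => F (u.map Sum.inl) (v.map Sum.inl)) w := by
  induction w generalizing F with
  | nil => rw [List.map_nil, ssum_nil, ssum_nil]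
  | cons a w ih =>
    rw [List.map_cons, ssum_cons, ssum_cons, ih]
    simp

theorem mom_inl (Q : List (K r)) : mom (Q.map (Sum.inl : K r → Let r)) = mom Q := by
  induction hn : Q.length using Nat.strong_induction_on generalizing Q with
  | _ n ih =>
    subst hn
    cases Q with
    | nil => rw [List.map_nil, mom_nil, mom_nil]
    | cons a Q =>
      rw [List.map_cons, mom_cons, mom_cons, ssum_map_inl]
      unfold ssum
      refine Finset.sum_congr rfl fun l hl => ?_
      have h1 : mom ((Q.take l).map (Sum.inl : K r → Let r)) = mom (Q.take l) :=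
        ih (Q.take l).length (by rw [List.length_take, List.length_cons]; omega) _ rfl
      have h2 : mom ((Q.drop (l + 1)).map (Sum.inl : K r → Let r)) = mom (Q.drop (l + 1)) :=
        ih (Q.drop (l + 1)).length (by rw [List.length_drop, List.length_cons]; omega) _ rfl
      split_ifs with h
      · change mom ((Q.take l).map (Sum.inl : K r → Let r))
          * mom ((Q.drop (l + 1)).map (Sum.inl : K r → Let r)) = _
        rw [h1, h2]
      · rfl

/-- the set of good tuples of the Gaussian matrices -/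
def Good (r k M : ℕ) (ε : ℝ) : Set (K r → Fin k → Fin k → ℝ) :=
  {v | (∀ i, ‖Matrix.toEuclideanCLM (n := Fin k) (𝕜 := ℂ) (herm k (v i))‖ ≤ 32) ∧
    ∀ w : List (K r), w.length ≤ M →
      ‖(k : ℂ)⁻¹ * Matrix.trace ((w.map fun j => herm k (v j)).prod) - ((mom w : ℝ) : ℂ)‖ < ε}

theorem herm_shear (k : ℕ) (v : K r → Fin k → Fin k → ℝ) (i : K r) :
    herm k (shear (Zc r k) v i) = ((mz i).map fun m => (m.map fun j => herm k (v j)).prod).sum := by
  rcases i with a | ⟨a, b, c⟩
  · simp [mz]
  · rw [shear_inr, herm_add, herm_Zc]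
    simp only [mz, Zm, List.map_cons, List.map_nil, List.prod_cons, List.prod_nil, mul_one,
      List.sum_cons, List.sum_nil, add_zero, mul_assoc]
    rw [add_comm, add_assoc]

theorem Xop_mz (F : FockSys T (Let r)) (i : K r) :
    Xop F 0 i = ((mz i).map fun m => (m.map fun j => F.y (Sum.inl j)).prod).sum := by
  rcases i with a | ⟨a, b, c⟩
  · rw [Xop_zero_inl]
    simp [mz]
  · rw [Xop_zero_inr]
    simp only [mz, List.map_cons, List.map_nil, List.prod_cons, List.prod_nil, mul_one,
      List.sum_cons, List.sum_nil, add_zero, mul_assoc, add_assoc]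

theorem good_subset (F : FockSys T (Let r)) (k m : ℕ) (ε : ℝ) (hε : 0 < ε) :
    Good r k (3 * m) (ε / (2 * 3 ^ m)) ⊆
      shear (Zc r k) ⁻¹' Gam T (Xop F 0) (32 + 2 * 32 ^ 3) m k ε := by
  rintro v ⟨hv1, hv2⟩
  refine ⟨fun i => ?_, fun w hw1 hw2 => ?_⟩
  · rcases i with a | ⟨a, b, c⟩
    · rw [shear_inl]
      refine (hv1 _).trans (by norm_num)
    · rw [shear_inr, herm_add, herm_Zc, map_add, Zm, map_add, map_mul, map_mul, map_mul, map_mul]
      have h3 : ∀ x y z : EuclideanSpace ℂ (Fin k) →L[ℂ] EuclideanSpace ℂ (Fin k),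
          ‖x‖ ≤ 32 → ‖y‖ ≤ 32 → ‖z‖ ≤ 32 → ‖x * y * z‖ ≤ 32 ^ 3 := by
        intro x y z hx hy hz
        calc ‖x * y * z‖ ≤ ‖x * y‖ * ‖z‖ := norm_mul_le _ _
          _ ≤ (‖x‖ * ‖y‖) * ‖z‖ := by gcongr; exact norm_mul_le _ _
          _ ≤ (32 * 32) * 32 := by gcongr
          _ = 32 ^ 3 := by norm_num
      refine (norm_add_le _ _).trans (add_le_add (hv1 _) ?_)
      refine (norm_add_le _ _).trans ?_
      have h4 := h3 _ _ _ (hv1 (Sum.inl a)) (hv1 (Sum.inl b)) (hv1 (Sum.inl c))
      have h5 := h3 _ _ _ (hv1 (Sum.inl c)) (hv1 (Sum.inl b)) (hv1 (Sum.inl a))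
      refine (add_le_add h4 h5).trans (by norm_num)
  · have hm : (w.map fun j => herm k (shear (Zc r k) v j)).prod
        = ((expw w).map fun Q => (Q.map fun j => herm k (v j)).prod).sum :=
      prod_expw (fun j => herm k (v j)) (fun j => herm k (shear (Zc r k) v j)) (herm_shear k v) w
    have ho : wordOp (Xop F 0) w
        = ((expw w).map fun Q => (Q.map fun j => F.y (Sum.inl j)).prod).sum :=
      prod_expw (fun j => F.y (Sum.inl j)) (Xop F 0) (Xop_mz F) w
    have h1 : (k : ℂ)⁻¹ * Matrix.trace ((w.map fun j => herm k (shear (Zc r k) v j)).prod)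
        = ((expw w).map fun Q => trkAdd k ((Q.map fun j => herm k (v j)).prod)).sum := by
      change trkAdd k ((w.map fun j => herm k (shear (Zc r k) v j)).prod) = _
      rw [hm, map_list_sum, List.map_map]
      rfl
    have h2 : T.tr (wordOp (Xop F 0) w)
        = ((expw w).map fun Q => ((mom Q : ℝ) : ℂ)).sum := by
      change trAdd T (wordOp (Xop F 0) w) = _
      rw [ho, map_list_sum, List.map_map]
      congr 1
      refine List.map_congr_left fun Q _ => ?_
      rw [← mom_inl, ← tr_word_inl F]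
      rfl
    rw [h1, h2]
    have h3 : (0 : ℝ) < 3 ^ m := by positivity
    have h4 : ∀ Q ∈ expw w, ‖trkAdd k ((Q.map fun j => herm k (v j)).prod) - ((mom Q : ℝ) : ℂ)‖
        ≤ ε / (2 * 3 ^ m) := by
      intro Q hQ
      refine (hv2 Q ?_).le
      have := expw_mem_length w Q hQ
      omega
    refine (list_diff_le _ _ _ _ h4).trans_lt ?_
    have h5 : ((expw w).length : ℝ) ≤ 3 ^ m := by
      have h6 : (expw w).length ≤ 3 ^ m :=
        (expw_length w).trans (Nat.pow_le_pow_right (by norm_num) hw2)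
      exact_mod_cast h6
    calc ((expw w).length : ℝ) * (ε / (2 * 3 ^ m)) ≤ 3 ^ m * (ε / (2 * 3 ^ m)) := by gcongr
      _ = ε / 2 := by field_simp
      _ < ε := by linarith

theorem volume_good_le (F : FockSys T (Let r)) (k m : ℕ) (ε : ℝ) (hε : 0 < ε) :
    volume (Good r k (3 * m) (ε / (2 * 3 ^ m)))
      ≤ volume (Gam T (Xop F 0) (32 + 2 * 32 ^ 3) m k ε) := by
  calc volume (Good r k (3 * m) (ε / (2 * 3 ^ m)))
      ≤ volume (shear (Zc r k) ⁻¹' Gam T (Xop F 0) (32 + 2 * 32 ^ 3) m k ε) :=
        measure_mono (good_subset F k m ε hε)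
    _ = _ := volume_preimage_shear (Zc r k) (measurable_Zc r k) _

theorem term_ge (n : ℕ) (k : ℕ) (hk : 0 < k) (V : ENNReal)
    (hV : ENNReal.ofReal (Real.sqrt (2 * Real.pi / k) ^ (n * k ^ 2) / 2) ≤ V) :
    (((n : ℝ) / 2 * Real.log (2 * Real.pi) - Real.log 2 : ℝ) : EReal)
      ≤ ((((k : ℝ) ^ 2)⁻¹ : ℝ) : EReal) * ENNReal.log V
        + (((n : ℝ) / 2 * Real.log k : ℝ) : EReal) := by
  have hk' : (0 : ℝ) < k := by exact_mod_cast hk
  have hk1 : (1 : ℝ) ≤ k := by exact_mod_cast hk
  set x : ℝ := Real.sqrt (2 * Real.pi / k) ^ (n * k ^ 2) / 2 with hx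
  have hs : 0 < Real.sqrt (2 * Real.pi / k) := Real.sqrt_pos.2 (by positivity)
  have hxpos : 0 < x := by positivity
  have h1 : ((Real.log x : ℝ) : EReal) ≤ ENNReal.log V := by
    rw [← ENNReal.log_ofReal_of_pos hxpos]
    exact ENNReal.log_monotone hV
  have h2 : Real.log x = (n : ℝ) * (k : ℝ) ^ 2 / 2 * (Real.log (2 * Real.pi) - Real.log k)
      - Real.log 2 := by
    rw [hx, Real.log_div (by positivity) (by norm_num), Real.log_pow, Real.log_sqrt (by positivity),
      Real.log_div (by positivity) hk'.ne']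
    push_cast
    ring
  have h3 : ((((k : ℝ) ^ 2)⁻¹ * Real.log x : ℝ) : EReal)
      ≤ ((((k : ℝ) ^ 2)⁻¹ : ℝ) : EReal) * ENNReal.log V := by
    rw [EReal.coe_mul]
    exact mul_le_mul_of_nonneg_left h1 (by positivity)
  refine le_trans ?_ (add_le_add_left h3 _)
  rw [← EReal.coe_add]
  refine EReal.coe_le_coe_iff.2 ?_
  rw [h2]
  have h4 : ((k : ℝ) ^ 2)⁻¹ * ((n : ℝ) * (k : ℝ) ^ 2 / 2 * (Real.log (2 * Real.pi) - Real.log k)
      - Real.log 2) + (n : ℝ) / 2 * Real.log k
      = (n : ℝ) / 2 * Real.log (2 * Real.pi) - ((k : ℝ) ^ 2)⁻¹ * Real.log 2 := by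
    field_simp
    ring
  rw [h4]
  have h5 : ((k : ℝ) ^ 2)⁻¹ ≤ 1 := inv_le_one_of_one_le₀ (one_le_pow₀ hk1)
  have h6 : 0 ≤ Real.log 2 := Real.log_nonneg (by norm_num)
  nlinarith

/-- (B) from the volume of the good set -/
theorem chi_gt_bot_of (F : FockSys T (Let r))
    (hG : ∀ (M : ℕ) (ε : ℝ), 0 < ε → ∀ᶠ k : ℕ in atTop,
      ENNReal.ofReal (Real.sqrt (2 * Real.pi / k) ^ (Fintype.card (K r) * k ^ 2) / 2)
        ≤ volume (Good r k M ε)) :
    ⊥ < chi T (Xop F 0) := by
  have h1 : (((Fintype.card (K r) : ℝ) / 2 * Real.log (2 * Real.pi) - Real.log 2 : ℝ) : EReal)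
      ≤ chiR T (Xop F 0) (32 + 2 * 32 ^ 3) := by
    unfold chiR
    refine le_iInf fun m => le_iInf fun ε => le_iInf fun hε => ?_
    refine le_limsup_of_frequently_le ?_
    refine Eventually.frequently ?_
    have hε' : 0 < ε / (2 * 3 ^ m) := by positivity
    filter_upwards [hG (3 * m) _ hε', eventually_gt_atTop 0] with k hk hk0
    have h3 := hk.trans (volume_good_le F k m ε hε)
    have h4 := term_ge (Fintype.card (K r)) k hk0
      (volume (Gam T (Xop F 0) (32 + 2 * 32 ^ 3) m k ε)) h3
    exact h4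
  refine lt_of_lt_of_le (EReal.bot_lt_coe _) (h1.trans ?_)
  have hR : (0 : ℝ) < 32 + 2 * 32 ^ 3 := by norm_num
  unfold chi
  exact le_iSup₂ (f := fun (R : ℝ) (_ : 0 < R) => chiR T (Xop F 0) R) _ hR

end P087
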