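import Mathlib

/-! P087 G/GaussVol: Gaussian volume bound (OUTPUT 2) (helper96). -/

open MeasureTheory

namespace P087

/-- Gaussian majorization of the volume of a ball: `vol {|w|^2 ≤ s} ≤ e^{b s} (π/b)^{d/2}`. -/
theorem volume_sq_le {α β : Type*} [Fintype α] [Fintype β] (b s : ℝ) (hb : 0 < b) :
    volume {w : α → β → ℝ | ∑ i, ∑ j, w i j ^ 2 ≤ s}
      ≤ ENNReal.ofReal (Real.exp (b * s) *
          (Real.pi / b) ^ ((Fintype.card α : ℝ) * (Fintype.card β : ℝ) / 2)) := by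
  have hint1 : Integrable (fun x : ℝ => Real.exp (-b * x ^ 2)) := integrable_exp_neg_mul_sq hb
  have hint2 : Integrable (fun w : β → ℝ => ∏ p, Real.exp (-b * w p ^ 2)) :=
    Integrable.fintype_prod (f := fun _ : β => fun x : ℝ => Real.exp (-b * x ^ 2))
      (fun _ => hint1)
  have hint : Integrable (fun w : α → β → ℝ => ∏ i, ∏ p, Real.exp (-b * w i p ^ 2)) :=
    Integrable.fintype_prod (f := fun _ : α => fun x : β → ℝ => ∏ p, Real.exp (-b * x p ^ 2))
      (fun _ => hint2)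
  have hval : ∫ w : α → β → ℝ, ∏ i, ∏ p, Real.exp (-b * w i p ^ 2)
      = (Real.pi / b) ^ ((Fintype.card α : ℝ) * (Fintype.card β : ℝ) / 2) := by
    rw [integral_fintype_prod_volume_eq_pow
        (fun x : β → ℝ => ∏ p, Real.exp (-b * x p ^ 2)),
      integral_fintype_prod_volume_eq_pow (fun x : ℝ => Real.exp (-b * x ^ 2)),
      integral_gaussian, Real.sqrt_eq_rpow, ← Real.rpow_natCast, ← Real.rpow_natCast,
      ← Real.rpow_mul (by positivity), ← Real.rpow_mul (by positivity)]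
    congr 1
    ring
  have hmeas : MeasurableSet {w : α → β → ℝ | ∑ i, ∑ j, w i j ^ 2 ≤ s} := by
    apply measurableSet_le
    · fun_prop
    · exact measurable_const
  have hpt : ∀ w : α → β → ℝ,
      {w : α → β → ℝ | ∑ i, ∑ j, w i j ^ 2 ≤ s}.indicator (1 : (α → β → ℝ) → ENNReal) w
      ≤ ENNReal.ofReal (Real.exp (b * s) * ∏ i, ∏ p, Real.exp (-b * w i p ^ 2)) := by
    intro w
    by_cases hw : w ∈ {w : α → β → ℝ | ∑ i, ∑ j, w i j ^ 2 ≤ s}
    · rw [Set.indicator_of_mem hw, Pi.one_apply, ENNReal.one_le_ofReal]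
      simp_rw [← Real.exp_sum]
      rw [← Real.exp_add]
      apply Real.one_le_exp
      have h1 : ∑ i, ∑ j, w i j ^ 2 ≤ s := hw
      simp_rw [← Finset.mul_sum]
      nlinarith
    · rw [Set.indicator_of_notMem hw]
      exact zero_le
  calc volume {w : α → β → ℝ | ∑ i, ∑ j, w i j ^ 2 ≤ s}
      = ∫⁻ w, {w : α → β → ℝ | ∑ i, ∑ j, w i j ^ 2 ≤ s}.indicator
          (1 : (α → β → ℝ) → ENNReal) w := by
        rw [lintegral_indicator_one hmeas]
    _ ≤ ∫⁻ w : α → β → ℝ,
          ENNReal.ofReal (Real.exp (b * s) * ∏ i, ∏ p, Real.exp (-b * w i p ^ 2)) :=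
        lintegral_mono hpt
    _ = ENNReal.ofReal
          (∫ w : α → β → ℝ, Real.exp (b * s) * ∏ i, ∏ p, Real.exp (-b * w i p ^ 2)) := by
        rw [← ofReal_integral_eq_lintegral_ofReal (hint.const_mul _)]
        exact Filter.Eventually.of_forall fun w => by positivity
    _ = _ := by rw [integral_const_mul, hval]

/-- OUTPUT 2: the product version. -/
theorem volume_balls_le {ι : Type*} [Fintype ι] (k : ℕ) (hk : 0 < k) (c : ℝ) :
    volume {v : ι → Fin k → Fin k → ℝ | ∀ i, ∑ a, ∑ b, v i a b ^ 2 ≤ (k : ℝ) * c}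
      ≤ ENNReal.ofReal (Real.exp ((Fintype.card ι : ℝ) * (k : ℝ) ^ 2 * c / 2)
          * (2 * Real.pi / k) ^ ((Fintype.card ι : ℝ) * (k : ℝ) ^ 2 / 2)) := by
  have hk' : (0 : ℝ) < k := by exact_mod_cast hk
  have hset : {v : ι → Fin k → Fin k → ℝ | ∀ i, ∑ a, ∑ b, v i a b ^ 2 ≤ (k : ℝ) * c}
      = Set.pi Set.univ
        (fun _ : ι => {w : Fin k → Fin k → ℝ | ∑ a, ∑ b, w a b ^ 2 ≤ (k : ℝ) * c}) := by
    ext v
    simp [Set.mem_pi]
  rw [hset, volume_pi_pi]
  have h1 := volume_sq_le (α := Fin k) (β := Fin k) ((k : ℝ) / 2) ((k : ℝ) * c) (by positivity)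
  calc ∏ _i : ι, volume {w : Fin k → Fin k → ℝ | ∑ a, ∑ b, w a b ^ 2 ≤ (k : ℝ) * c}
      ≤ ∏ _i : ι, ENNReal.ofReal (Real.exp ((k : ℝ) / 2 * ((k : ℝ) * c))
          * (Real.pi / ((k : ℝ) / 2)) ^
              ((Fintype.card (Fin k) : ℝ) * (Fintype.card (Fin k) : ℝ) / 2)) :=
        Finset.prod_le_prod' fun i _ => h1
    _ = ENNReal.ofReal ((Real.exp ((k : ℝ) / 2 * ((k : ℝ) * c))
          * (Real.pi / ((k : ℝ) / 2)) ^
              ((Fintype.card (Fin k) : ℝ) * (Fintype.card (Fin k) : ℝ) / 2))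
            ^ (Fintype.card ι)) := by
        rw [Finset.prod_const, ← ENNReal.ofReal_pow (by positivity), Finset.card_univ]
    _ = _ := by
        congr 1
        rw [mul_pow, ← Real.exp_nat_mul, ← Real.rpow_natCast, ← Real.rpow_mul (by positivity)]
        congr 1
        · congr 1
          ring
        · rw [show Real.pi / ((k : ℝ) / 2) = 2 * Real.pi / k by field_simp]
          congr 1
          simp
          ring

end P087
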