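import Vale.Agent.Lib.P087.Stmt

/-! P087 G/Herm: the coordinates `herm` of self-adjoint matrices (helper96). -/

open MeasureTheory

namespace P087

/-- coordinates of a self-adjoint matrix -/
noncomputable def coord (k : ℕ) (M : Matrix (Fin k) (Fin k) ℂ) : Fin k → Fin k → ℝ := fun i j =>
  if i = j then (M i i).re
  else if i < j then Real.sqrt 2 * (M i j).re
  else Real.sqrt 2 * (M j i).im

theorem sqrtTwo_ne : ((Real.sqrt 2 : ℝ) : ℂ) ≠ 0 := by
  rw [Complex.ofReal_ne_zero]
  positivity

theorem herm_coord {k : ℕ} {M : Matrix (Fin k) (Fin k) ℂ} (hM : M.IsHermitian) :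
    herm k (coord k M) = M := by
  have h2 := sqrtTwo_ne
  ext i j
  have hij : M i j = star (M j i) := (hM.apply i j).symm
  rcases lt_trichotomy i j with h | h | h
  · have h1 : i ≠ j := h.ne
    have h3 : ¬ j < i := h.asymm
    simp only [herm, coord, h1, h1.symm, h, h3, if_true, if_false]
    rw [div_eq_iff h2]
    apply Complex.ext <;> simp <;> ring
  · subst h
    simp only [herm, coord, if_true]
    have h3 : (M i i).im = 0 := by
      have h4 := congrArg Complex.im hij
      simp at h4
      linarith
    apply Complex.ext <;> simp [h3]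
  · have h1 : i ≠ j := h.ne'
    have h3 : ¬ i < j := h.asymm
    simp only [herm, coord, h1, h1.symm, h, h3, if_true, if_false]
    rw [div_eq_iff h2, hij]
    apply Complex.ext <;> simp <;> ring

theorem herm_add (k : ℕ) (v w : Fin k → Fin k → ℝ) : herm k (v + w) = herm k v + herm k w := by
  ext i j
  simp only [herm, Pi.add_apply, Matrix.add_apply]
  split_ifs <;> push_cast <;> ring

theorem herm_neg (k : ℕ) (v : Fin k → Fin k → ℝ) : herm k (-v) = - herm k v := by
  ext i j
  simp only [herm, Pi.neg_apply, Matrix.neg_apply]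
  split_ifs <;> push_cast <;> ring

theorem herm_isHermitian (k : ℕ) (v : Fin k → Fin k → ℝ) : (herm k v).IsHermitian := by
  apply Matrix.IsHermitian.ext
  intro i j
  rcases lt_trichotomy i j with h | h | h
  · have h1 : i ≠ j := h.ne
    have h3 : ¬ j < i := h.asymm
    simp only [herm, h1, h1.symm, h, h3, if_true, if_false]
    simp [Complex.conj_ofReal]
  · subst h
    simp [herm, Complex.conj_ofReal]
  · have h1 : i ≠ j := h.ne'
    have h3 : ¬ i < j := h.asymm
    simp only [herm, h1, h1.symm, h, h3, if_true, if_false]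
    simp [Complex.conj_ofReal, sub_eq_add_neg]

theorem herm_mul_symm (k : ℕ) (v : Fin k → Fin k → ℝ) (i j : Fin k) :
    herm k v i j * herm k v j i = (((v i j ^ 2 + v j i ^ 2) / 2 : ℝ) : ℂ) := by
  have h2 := sqrtTwo_ne
  have h22 : ((Real.sqrt 2 : ℝ) : ℂ) * ((Real.sqrt 2 : ℝ) : ℂ) = 2 := by
    rw [← Complex.ofReal_mul, Real.mul_self_sqrt (by norm_num)]
    norm_num
  have hI : Complex.I * Complex.I = -1 := Complex.I_mul_I
  rcases lt_trichotomy i j with h | h | h
  · have h1 : i ≠ j := h.ne
    have h3 : ¬ j < i := h.asymm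
    simp only [herm, h1, h1.symm, h, h3, if_true, if_false]
    rw [div_mul_div_comm, h22]
    push_cast
    congr 1
    linear_combination (-(v j i : ℂ) ^ 2) * hI
  · subst h
    simp only [herm, if_true]
    push_cast
    ring
  · have h1 : i ≠ j := h.ne'
    have h3 : ¬ i < j := h.asymm
    simp only [herm, h1, h1.symm, h, h3, if_true, if_false]
    rw [div_mul_div_comm, h22]
    push_cast
    congr 1
    linear_combination (-(v i j : ℂ) ^ 2) * hI

/-- `Tr (herm v)^2 = |v|^2` -/
theorem trace_herm_sq (k : ℕ) (v : Fin k → Fin k → ℝ) :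
    Matrix.trace (herm k v * herm k v) = ((∑ i, ∑ j, v i j ^ 2 : ℝ) : ℂ) := by
  have h1 : Matrix.trace (herm k v * herm k v) = ∑ i, ∑ j, herm k v i j * herm k v j i := by
    simp [Matrix.trace, Matrix.mul_apply]
  rw [h1]
  simp_rw [herm_mul_symm]
  have h2 : ∑ i, ∑ j, ((((v i j ^ 2 + v j i ^ 2) / 2 : ℝ)) : ℂ)
      = ((∑ i, ∑ j, (v i j ^ 2 + v j i ^ 2) / 2 : ℝ) : ℂ) := by
    push_cast
    rfl
  rw [h2]
  congr 1
  have h3 : ∑ i, ∑ j, (v i j ^ 2 + v j i ^ 2) / 2
      = (∑ i, ∑ j, v i j ^ 2 + ∑ i, ∑ j, v j i ^ 2) / 2 := by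
    rw [← Finset.sum_add_distrib, Finset.sum_div]
    refine Finset.sum_congr rfl fun i _ => ?_
    rw [← Finset.sum_add_distrib, Finset.sum_div]
  rw [h3, Finset.sum_comm (f := fun i j => v j i ^ 2)]
  ring

/-- `herm` is measurable entrywise; `coord` of a continuous matrix function is continuous -/
theorem continuous_herm_apply (k : ℕ) (i j : Fin k) :
    Continuous (fun v : Fin k → Fin k → ℝ => herm k v i j) := by
  simp only [herm]
  split_ifs <;> fun_prop

theorem continuous_herm (k : ℕ) : Continuous (fun v : Fin k → Fin k → ℝ => herm k v) :=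
  continuous_matrix fun i j => continuous_herm_apply k i j

theorem continuous_coord (k : ℕ) : Continuous (coord k) := by
  refine continuous_pi fun i => continuous_pi fun j => ?_
  simp only [coord]
  split_ifs <;> fun_prop

/-- `v ↦ coord (M v)` is measurable for continuous `M` -/
theorem measurable_coord {α : Type*} [TopologicalSpace α] [MeasurableSpace α]
    [OpensMeasurableSpace α] (k : ℕ) {M : α → Matrix (Fin k) (Fin k) ℂ} (hM : Continuous M) :
    Measurable fun v => coord k (M v) :=
  ((continuous_coord k).comp hM).measurable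

end P087
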