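import Mathlib

/-! P087 G/Shear: shears preserve the volume (OUTPUT 3) (helper96). -/

open MeasureTheory

namespace P087

section
variable {α β E : Type*} [AddGroup E]

/-- The shear `(a, b) ↦ (a, b + f a)` on `α ⊕ β → E`. -/
def shear (f : (α → E) → β → E) (v : α ⊕ β → E) : α ⊕ β → E :=
  Sum.elim (fun i => v (Sum.inl i)) (fun j => v (Sum.inr j) + f (fun i => v (Sum.inl i)) j)

@[simp] theorem shear_inl (f : (α → E) → β → E) (v : α ⊕ β → E)
    (i : α) : shear f v (Sum.inl i) = v (Sum.inl i) := rfl

@[simp] theorem shear_inr (f : (α → E) → β → E) (v : α ⊕ β → E)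
    (j : β) : shear f v (Sum.inr j) = v (Sum.inr j) + f (fun i => v (Sum.inl i)) j := rfl

theorem shear_neg_shear (f : (α → E) → β → E)
    (v : α ⊕ β → E) : shear (fun a j => - f a j) (shear f v) = v := by
  funext i
  cases i with
  | inl i => rfl
  | inr j => simp

theorem shear_shear_neg (f : (α → E) → β → E)
    (v : α ⊕ β → E) : shear f (shear (fun a j => - f a j) v) = v := by
  funext i
  cases i with
  | inl i => rfl
  | inr j => simp

end

/-- OUTPUT 3: the shear preserves Lebesgue measure. -/
theorem measurePreserving_shear {α β : Type*} [Fintype α] [Fintype β] {k l : ℕ}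
    (f : (α → Fin k → Fin l → ℝ) → β → Fin k → Fin l → ℝ) (hf : Measurable f) :
    MeasurePreserving (shear f) (volume : Measure (α ⊕ β → Fin k → Fin l → ℝ)) volume := by
  have h1 := volume_measurePreserving_sumPiEquivProdPi
    (fun _ : α ⊕ β => Fin k → Fin l → ℝ)
  have h2 : MeasurePreserving
      (fun p : (α → Fin k → Fin l → ℝ) × (β → Fin k → Fin l → ℝ) => (p.1, p.2 + f p.1))
      (volume.prod volume) (volume.prod volume) := by
    refine MeasurePreserving.skew_product (f := fun a : α → Fin k → Fin l → ℝ => a)
      (g := fun (a : α → Fin k → Fin l → ℝ) (c : β → Fin k → Fin l → ℝ) => c + f a)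
      (MeasurePreserving.id _) ?_ ?_
    · exact measurable_snd.add (hf.comp measurable_fst)
    · refine Filter.Eventually.of_forall fun a => ?_
      have i1 : (volume : Measure (Fin k → Fin l → ℝ)).IsAddLeftInvariant := inferInstance
      have i2 : (volume : Measure (β → Fin k → Fin l → ℝ)).IsAddLeftInvariant := inferInstance
      have h := map_add_left_eq_self (volume : Measure (β → Fin k → Fin l → ℝ)) (f a)
      rw [← h]
      congr 1
      · funext c
        exact add_comm _ _
  have h3 := volume_measurePreserving_sumPiEquivProdPi_symm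
    (fun _ : α ⊕ β => Fin k → Fin l → ℝ)
  have h4 := h3.comp (h2.comp h1)
  have h5 : shear f = (MeasurableEquiv.sumPiEquivProdPi
        (fun _ : α ⊕ β => Fin k → Fin l → ℝ)).symm ∘
      ((fun p : (α → Fin k → Fin l → ℝ) × (β → Fin k → Fin l → ℝ) => (p.1, p.2 + f p.1)) ∘
        (MeasurableEquiv.sumPiEquivProdPi (fun _ : α ⊕ β => Fin k → Fin l → ℝ))) := by
    funext v
    funext i
    cases i <;> rfl
  rw [h5]
  exact h4

/-- The shear as a measurable equivalence. -/
def shearEquiv {α β : Type*} [Fintype α] [Fintype β] {k l : ℕ}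
    (f : (α → Fin k → Fin l → ℝ) → β → Fin k → Fin l → ℝ) (hf : Measurable f) :
    (α ⊕ β → Fin k → Fin l → ℝ) ≃ᵐ (α ⊕ β → Fin k → Fin l → ℝ) where
  toFun := shear f
  invFun := shear (fun a j => - f a j)
  left_inv := shear_neg_shear f
  right_inv := shear_shear_neg f
  measurable_toFun := (measurePreserving_shear f hf).measurable
  measurable_invFun := (measurePreserving_shear (fun a j => - f a j)
    (by
      rw [measurable_pi_iff] at hf ⊢
      intro j
      exact (hf j).neg)).measurable

/-- Preimages of arbitrary sets under the shear have the same volume. -/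
theorem volume_preimage_shear {α β : Type*} [Fintype α] [Fintype β] {k l : ℕ}
    (f : (α → Fin k → Fin l → ℝ) → β → Fin k → Fin l → ℝ) (hf : Measurable f)
    (S : Set (α ⊕ β → Fin k → Fin l → ℝ)) :
    volume (shear f ⁻¹' S) = volume S :=
  (measurePreserving_shear f hf).measure_preimage_equiv (f := shearEquiv f hf) S

/-- Images of arbitrary sets under the shear have the same volume. -/
theorem volume_image_shear {α β : Type*} [Fintype α] [Fintype β] {k l : ℕ}
    (f : (α → Fin k → Fin l → ℝ) → β → Fin k → Fin l → ℝ) (hf : Measurable f)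
    (S : Set (α ⊕ β → Fin k → Fin l → ℝ)) :
    volume (shear f '' S) = volume S := by
  have hinj : Function.Injective (shear f) := (shearEquiv f hf).injective
  rw [← volume_preimage_shear f hf (shear f '' S), Set.preimage_image_eq _ hinj]

end P087
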