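import Vale.Agent.Lib.P087.Hilb
import Vale.Agent.Lib.P087.G.Herm
import Vale.Agent.Lib.P087.G.Shear
import Vale.Agent.Lib.P087.G.GaussVol

/-! P087 G/ChiLe: the upper bound `χ(X) ≤ (n/2) log (2πe)` (helper96). -/

open MeasureTheory Filter

namespace P087

variable {H : Type} [NormedAddCommGroup H] [InnerProductSpace ℂ H] [CompleteSpace H]
variable {T : TracialVN H} {r : ℕ}

theorem Xop_zero_inl (F : FockSys T (Let r)) (a : Fin r) :
    Xop F 0 (Sum.inl a) = F.y (hid a) := by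
  simp [Xop, mons, wordOp]

theorem Xop_zero_inr (F : FockSys T (Let r)) (a b c : Fin r) :
    Xop F 0 (Sum.inr (a, b, c)) = (F.y (hid a) * F.y (hid b) * F.y (hid c)
      + F.y (hid c) * F.y (hid b) * F.y (hid a)) + F.y (inn (a, b, c)) := by
  simp [Xop, mons, wordOp, mul_assoc, add_assoc]

theorem FockSys.tr_sq {I : Type} [DecidableEq I] (F : FockSys T I) (i : I) :
    T.tr (F.y i * F.y i) = 1 := by
  have h1 : (F.y i * F.y i) T.Ω = F.e [i, i] + F.e [] := by
    rw [← F.e_nil, mul_apply_eq_comp, F.act_nil, F.act_cons]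
    simp
  have h2 := orthonormal_iff_ite.1 F.e_on
  rw [TracialVN.tr, h1, ← F.e_nil, inner_add_right, h2, h2]
  simp

/-- the trace as an additive map -/
noncomputable def trAdd (T : TracialVN H) : (H →L[ℂ] H) →+ ℂ where
  toFun := T.tr
  map_zero' := by simp [TracialVN.tr]
  map_add' a b := by simp [TracialVN.tr]

/-- the normalized matrix trace as an additive map -/
noncomputable def trkAdd (k : ℕ) : Matrix (Fin k) (Fin k) ℂ →+ ℂ where
  toFun := fun A => (k : ℂ)⁻¹ * Matrix.trace A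
  map_zero' := by simp
  map_add' a b := by simp [mul_add]

theorem expand_sq {R : Type*} [Ring R] (φ : R →+ ℂ) (B a b c : R) :
    φ ((B - (a * b * c + c * b * a)) * (B - (a * b * c + c * b * a)))
      = φ (B * B) - φ (B * (a * (b * c))) - φ (B * (c * (b * a)))
        - φ (a * (b * (c * B))) + φ (a * (b * (c * (a * (b * c)))))
        + φ (a * (b * (c * (c * (b * a))))) - φ (c * (b * (a * B)))
        + φ (c * (b * (a * (a * (b * c))))) + φ (c * (b * (a * (c * (b * a))))) := by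
  simp only [mul_sub, sub_mul, mul_add, add_mul, map_sub, map_add, mul_assoc]
  ring

/-- the cubic matrix polynomial `Z_j` -/
noncomputable def Zm {k : ℕ} (A : Fin r → Matrix (Fin k) (Fin k) ℂ) (j : J r) :
    Matrix (Fin k) (Fin k) ℂ :=
  A j.1 * A j.2.1 * A j.2.2 + A j.2.2 * A j.2.1 * A j.1

theorem Zm_isHermitian {k : ℕ} {A : Fin r → Matrix (Fin k) (Fin k) ℂ}
    (hA : ∀ i, (A i).IsHermitian) (j : J r) : (Zm A j).IsHermitian := by
  unfold Zm Matrix.IsHermitian
  rw [Matrix.conjTranspose_add, Matrix.conjTranspose_mul, Matrix.conjTranspose_mul,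
    Matrix.conjTranspose_mul, Matrix.conjTranspose_mul, (hA _).eq, (hA _).eq, (hA _).eq,
    add_comm, mul_assoc, mul_assoc]

/-- coordinates of `Z_j(A)`, `A_i = herm (v_i)` -/
noncomputable def Zc (r k : ℕ) (v : Fin r → Fin k → Fin k → ℝ) (j : J r) : Fin k → Fin k → ℝ :=
  coord k (Zm (fun i => herm k (v i)) j)

theorem herm_Zc (k : ℕ) (v : Fin r → Fin k → Fin k → ℝ) (j : J r) :
    herm k (Zc r k v j) = Zm (fun i => herm k (v i)) j :=
  herm_coord (Zm_isHermitian (fun i => herm_isHermitian k (v i)) j)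

theorem continuous_Zc (r k : ℕ) : Continuous (Zc r k) := by
  refine continuous_pi fun j => ?_
  refine (continuous_coord k).comp ?_
  have h : ∀ i : Fin r, Continuous fun v : Fin r → Fin k → Fin k → ℝ => herm k (v i) :=
    fun i => (continuous_herm k).comp (continuous_apply i)
  unfold Zm
  exact (((h _).matrix_mul (h _)).matrix_mul (h _)).add
    (((h _).matrix_mul (h _)).matrix_mul (h _))

theorem measurable_Zc (r k : ℕ) : Measurable (Zc r k) := (continuous_Zc r k).measurable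

theorem measurable_neg_Zc (r k : ℕ) : Measurable fun v j => - Zc r k v j := by
  have h : Continuous fun v j => - Zc r k v j :=
    continuous_pi fun j => ((continuous_apply j).comp (continuous_Zc r k)).neg
  exact h.measurable

theorem nine_bound (x y : Fin 9 → ℂ) (s : Fin 9 → ℂ) (hs : ∀ l, ‖s l‖ = 1) (ε : ℝ)
    (h : ∀ l, ‖x l - y l‖ < ε) :
    ‖(∑ l, s l * x l) - ∑ l, s l * y l‖ ≤ 9 * ε := by
  rw [← Finset.sum_sub_distrib]
  refine (norm_sum_le _ _).trans ?_
  have h1 : ∀ l ∈ (Finset.univ : Finset (Fin 9)), ‖s l * x l - s l * y l‖ ≤ ε := by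
    intro l _
    rw [← mul_sub, norm_mul, hs, one_mul]
    exact (h l).le
  refine (Finset.sum_le_card_nsmul _ _ _ h1).trans ?_
  simp

theorem re_bound {k : ℕ} (hk : 0 < k) {s c : ℝ} {z : ℂ} (h1 : (k : ℂ)⁻¹ * (s : ℂ) = z)
    (h2 : ‖z - 1‖ ≤ c) : s ≤ (k : ℝ) * (1 + c) := by
  have hk' : (0 : ℝ) < k := by exact_mod_cast hk
  have h3 : z = (((k : ℝ)⁻¹ * s : ℝ) : ℂ) := by
    rw [← h1]
    push_cast
    rfl
  have h4 : (((k : ℝ)⁻¹ * s : ℝ) : ℂ) - 1 = (((k : ℝ)⁻¹ * s - 1 : ℝ) : ℂ) := by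
    push_cast
    rfl
  rw [h3, h4, Complex.norm_real] at h2
  have h5 : (k : ℝ)⁻¹ * s - 1 ≤ c := (le_abs_self _).trans h2
  have h6 : (k : ℝ)⁻¹ * s ≤ 1 + c := by linarith
  calc s = (k : ℝ) * ((k : ℝ)⁻¹ * s) := by field_simp
    _ ≤ _ := by gcongr

theorem gam_subset (F : FockSys T (Let r)) (R : ℝ) (k : ℕ) (hk : 0 < k) (ε : ℝ) (hε : 0 < ε) :
    Gam T (Xop F 0) R 6 k ε ⊆ shear (fun v j => - Zc r k v j) ⁻¹'
      {v : K r → Fin k → Fin k → ℝ | ∀ i, ∑ a, ∑ b, v i a b ^ 2 ≤ (k : ℝ) * (1 + 9 * ε)} := by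
  rintro v ⟨-, hv⟩ i
  rcases i with a | ⟨a, b, c⟩
  · have h1 := hv [Sum.inl a, Sum.inl a] (by simp) (by simp)
    simp only [List.map_cons, List.map_nil, List.prod_cons, List.prod_nil, mul_one, wordOp,
      Xop_zero_inl, F.tr_sq] at h1
    rw [trace_herm_sq] at h1
    rw [shear_inl]
    refine re_bound hk rfl (h1.le.trans ?_)
    linarith
  · have htr : trAdd T ((Xop F 0 (Sum.inr (a, b, c)) -
        (Xop F 0 (Sum.inl a) * Xop F 0 (Sum.inl b) * Xop F 0 (Sum.inl c)
          + Xop F 0 (Sum.inl c) * Xop F 0 (Sum.inl b) * Xop F 0 (Sum.inl a)))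
        * (Xop F 0 (Sum.inr (a, b, c)) -
        (Xop F 0 (Sum.inl a) * Xop F 0 (Sum.inl b) * Xop F 0 (Sum.inl c)
          + Xop F 0 (Sum.inl c) * Xop F 0 (Sum.inl b) * Xop F 0 (Sum.inl a)))) = 1 := by
      rw [Xop_zero_inr, Xop_zero_inl, Xop_zero_inl, Xop_zero_inl, add_sub_cancel_left]
      exact F.tr_sq _
    rw [expand_sq] at htr
    have hu : herm k (shear (fun v j => - Zc r k v j) v (Sum.inr (a, b, c)))
        = herm k (v (Sum.inr (a, b, c))) -
          (herm k (v (Sum.inl a)) * herm k (v (Sum.inl b)) * herm k (v (Sum.inl c))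
          + herm k (v (Sum.inl c)) * herm k (v (Sum.inl b)) * herm k (v (Sum.inl a))) := by
      rw [shear_inr, herm_add, herm_neg, herm_Zc, ← sub_eq_add_neg]
      rfl
    have hm : trkAdd k (herm k (shear (fun v j => - Zc r k v j) v (Sum.inr (a, b, c))) *
        herm k (shear (fun v j => - Zc r k v j) v (Sum.inr (a, b, c))))
        = (k : ℂ)⁻¹ * ((∑ i, ∑ j, (shear (fun v j => - Zc r k v j) v (Sum.inr (a, b, c))) i j ^ 2
            : ℝ) : ℂ) := by
      rw [← trace_herm_sq]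
      rfl
    refine re_bound hk hm.symm ?_
    rw [hu, expand_sq]
    have hw : ∀ w : List (K r), 1 ≤ w.length → w.length ≤ 6 →
        ‖trkAdd k ((w.map fun j => herm k (v j)).prod) - trAdd T ((w.map (Xop F 0)).prod)‖ < ε :=
      fun w h1 h2 => hv w h1 h2
    let wd : Fin 9 → List (K r) := ![
      [Sum.inr (a, b, c), Sum.inr (a, b, c)],
      [Sum.inr (a, b, c), Sum.inl a, Sum.inl b, Sum.inl c],
      [Sum.inr (a, b, c), Sum.inl c, Sum.inl b, Sum.inl a],
      [Sum.inl a, Sum.inl b, Sum.inl c, Sum.inr (a, b, c)],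
      [Sum.inl a, Sum.inl b, Sum.inl c, Sum.inl a, Sum.inl b, Sum.inl c],
      [Sum.inl a, Sum.inl b, Sum.inl c, Sum.inl c, Sum.inl b, Sum.inl a],
      [Sum.inl c, Sum.inl b, Sum.inl a, Sum.inr (a, b, c)],
      [Sum.inl c, Sum.inl b, Sum.inl a, Sum.inl a, Sum.inl b, Sum.inl c],
      [Sum.inl c, Sum.inl b, Sum.inl a, Sum.inl c, Sum.inl b, Sum.inl a]]
    let sg : Fin 9 → ℂ := ![1, -1, -1, -1, 1, 1, -1, 1, 1]
    have hlen : ∀ l, 1 ≤ (wd l).length ∧ (wd l).length ≤ 6 := by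
      intro l
      fin_cases l <;> simp [wd]
    have hsg : ∀ l, ‖sg l‖ = 1 := by
      intro l
      fin_cases l <;> simp [sg]
    have hnine := nine_bound (fun l => trkAdd k (((wd l).map fun j => herm k (v j)).prod))
      (fun l => trAdd T (((wd l).map (Xop F 0)).prod)) sg hsg ε
      (fun l => hw (wd l) (hlen l).1 (hlen l).2)
    rw [← htr]
    refine le_of_eq_of_le ?_ hnine
    congr 1
    simp only [Fin.sum_univ_succ, wd, sg, Matrix.cons_val_zero,
      Matrix.cons_val_succ, Fin.sum_univ_zero, List.map_cons, List.map_nil, List.prod_cons,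
      List.prod_nil, mul_one]
    ring

theorem volume_gam_le (F : FockSys T (Let r)) (R : ℝ) (k : ℕ) (hk : 0 < k) (ε : ℝ) (hε : 0 < ε) :
    volume (Gam T (Xop F 0) R 6 k ε)
      ≤ ENNReal.ofReal (Real.exp ((Fintype.card (K r) : ℝ) * (k : ℝ) ^ 2 * (1 + 9 * ε) / 2)
          * (2 * Real.pi / k) ^ ((Fintype.card (K r) : ℝ) * (k : ℝ) ^ 2 / 2)) := by
  refine (measure_mono (gam_subset F R k hk ε hε)).trans ?_
  rw [volume_preimage_shear _ (measurable_neg_Zc r k)]
  exact volume_balls_le k hk _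

theorem term_le (F : FockSys T (Let r)) (R : ℝ) (k : ℕ) (hk : 0 < k) (ε : ℝ) (hε : 0 < ε) :
    ((((k : ℝ) ^ 2)⁻¹ : ℝ) : EReal) * ENNReal.log (volume (Gam T (Xop F 0) R 6 k ε))
      + ((Fintype.card (K r) / 2 * Real.log k : ℝ) : EReal)
      ≤ ((Fintype.card (K r) * (1 + 9 * ε) / 2 + Fintype.card (K r) / 2 * Real.log (2 * Real.pi)
          : ℝ) : EReal) := by
  have hk' : (0 : ℝ) < k := by exact_mod_cast hk
  set n : ℝ := (Fintype.card (K r) : ℝ) with hn
  set x : ℝ := Real.exp (n * (k : ℝ) ^ 2 * (1 + 9 * ε) / 2)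
          * (2 * Real.pi / k) ^ (n * (k : ℝ) ^ 2 / 2) with hx
  have hxpos : 0 < x := by positivity
  have h1 : ENNReal.log (volume (Gam T (Xop F 0) R 6 k ε)) ≤ ((Real.log x : ℝ) : EReal) := by
    rw [← ENNReal.log_ofReal_of_pos hxpos]
    exact ENNReal.log_monotone (volume_gam_le F R k hk ε hε)
  have h2 : Real.log x = n * (k : ℝ) ^ 2 * (1 + 9 * ε) / 2
      + n * (k : ℝ) ^ 2 / 2 * (Real.log (2 * Real.pi) - Real.log k) := by
    rw [hx, Real.log_mul (by positivity) (by positivity), Real.log_exp,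
      Real.log_rpow (by positivity), Real.log_div (by positivity) hk'.ne']
  have h3 : ((((k : ℝ) ^ 2)⁻¹ : ℝ) : EReal) * ENNReal.log (volume (Gam T (Xop F 0) R 6 k ε))
      ≤ ((((k : ℝ) ^ 2)⁻¹ * Real.log x : ℝ) : EReal) := by
    rw [EReal.coe_mul]
    exact mul_le_mul_of_nonneg_left h1 (by positivity)
  refine (add_le_add_left h3 _).trans ?_
  rw [← EReal.coe_add]
  refine EReal.coe_le_coe_iff.2 (le_of_eq ?_)
  rw [h2]
  field_simp
  ring

/-- (A): `χ(X) ≤ (n/2) log (2πe)` -/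
theorem chi_le (F : FockSys T (Let r)) :
    chi T (Xop F 0)
      ≤ ((Fintype.card (K r) / 2 * Real.log (2 * Real.pi * Real.exp 1) : ℝ) : EReal) := by
  refine iSup_le fun R => iSup_le fun _ => ?_
  have h1 : ∀ N : ℕ, chiR T (Xop F 0) R
      ≤ ((Fintype.card (K r) * (1 + 9 * (1 / ((N : ℝ) + 1))) / 2
          + Fintype.card (K r) / 2 * Real.log (2 * Real.pi) : ℝ) : EReal) := by
    intro N
    have hε : (0 : ℝ) < 1 / ((N : ℝ) + 1) := by positivity
    unfold chiR
    refine iInf_le_of_le 6 (iInf_le_of_le (1 / ((N : ℝ) + 1)) (iInf_le_of_le hε ?_))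
    refine limsup_le_of_le (h := ?_)
    filter_upwards [eventually_gt_atTop 0] with k hk
    exact term_le F R k hk _ hε
  have h2 : Tendsto (fun N : ℕ => ((Fintype.card (K r) * (1 + 9 * (1 / ((N : ℝ) + 1))) / 2
          + Fintype.card (K r) / 2 * Real.log (2 * Real.pi) : ℝ) : EReal)) atTop
      (nhds ((Fintype.card (K r) * (1 + 9 * 0) / 2
          + Fintype.card (K r) / 2 * Real.log (2 * Real.pi) : ℝ) : EReal)) := by
    refine (continuous_coe_real_ereal.tendsto _).comp ?_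
    refine Tendsto.add_const _ (Tendsto.div_const (Tendsto.const_mul _ ?_) _)
    exact (tendsto_one_div_add_atTop_nhds_zero_nat.const_mul 9).const_add 1
  refine (ge_of_tendsto' h2 h1).trans (le_of_eq ?_)
  congr 1
  rw [Real.log_mul (x := 2 * Real.pi) (by positivity) (by positivity), Real.log_exp]
  ring

end P087
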