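import Mathlib

/-! P087, part G (GUE): definitions. Namespace `P087`. -/

open MeasureTheory ProbabilityTheory Matrix MvPolynomial

namespace P087.GU

/-- Orthonormal coordinates of the self-adjoint `k × k` matrices for `Tr (AB)`: the diagonal entries
are `v (i,i)`, the entries above the diagonal are `(v (i,j) + v (j,i) * I) / √2`. -/
noncomputable def herm {k : ℕ} (v : Fin k × Fin k → ℝ) : Matrix (Fin k) (Fin k) ℂ :=
  fun i j => if i = j then (v (i, i) : ℂ)
    else if i < j then ((v (i, j) : ℂ) + (v (j, i) : ℂ) * Complex.I) / (Real.sqrt 2 : ℂ)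
    else ((v (j, i) : ℂ) - (v (i, j) : ℂ) * Complex.I) / (Real.sqrt 2 : ℂ)

/-- product of a word in matrices -/
noncomputable def mw {ι : Type} {k : ℕ} (A : ι → Matrix (Fin k) (Fin k) ℂ) (w : List ι) :
    Matrix (Fin k) (Fin k) ℂ :=
  (w.map A).prod

/-- normalized trace -/
noncomputable def trk {k : ℕ} (A : Matrix (Fin k) (Fin k) ℂ) : ℂ := A.trace / k

/-- all `(w1, w2)` with `w = w1 ++ i :: w2` -/
def splits {ι : Type} [DecidableEq ι] (i : ι) : List ι → List (List ι × List ι)
  | [] => []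
  | j :: w => (if i = j then [([], w)] else []) ++
      (splits i w).map (fun q => (j :: q.1, q.2))

/-- the basis matrices -/
noncomputable def Bm {k : ℕ} (p : Fin k × Fin k) : Matrix (Fin k) (Fin k) ℂ :=
  herm (Pi.single p 1)

/-- the Gaussian measure: all coordinates are independent centered Gaussians of variance `1/k` -/
noncomputable def gm (ι : Type) [Fintype ι] (k : ℕ) : Measure (ι → Fin k × Fin k → ℝ) :=
  Measure.pi fun _ => Measure.pi fun _ => gaussianReal 0 (1 / (k : NNReal))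

/-- evaluation of polynomials at the coordinates -/
noncomputable def evc {ι : Type} {k : ℕ} (v : ι → Fin k × Fin k → ℝ)
    (P : MvPolynomial (ι × (Fin k × Fin k)) ℂ) : ℂ :=
  eval (fun s => ((v s.1 s.2 : ℝ) : ℂ)) P

/-- expectation of a polynomial -/
noncomputable def EP {ι : Type} [Fintype ι] {k : ℕ}
    (P : MvPolynomial (ι × (Fin k × Fin k)) ℂ) : ℂ :=
  ∫ v, evc v P ∂(gm ι k)

/-- the generic self-adjoint matrix -/
noncomputable def Gm {ι : Type} {k : ℕ} (i : ι) :
    Matrix (Fin k) (Fin k) (MvPolynomial (ι × (Fin k × Fin k)) ℂ) :=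
  ∑ p : Fin k × Fin k, (X (i, p) : MvPolynomial (ι × (Fin k × Fin k)) ℂ) • (Bm p).map C

/-- word in the generic matrices -/
noncomputable def Wm {ι : Type} {k : ℕ} (w : List ι) :
    Matrix (Fin k) (Fin k) (MvPolynomial (ι × (Fin k × Fin k)) ℂ) :=
  (w.map Gm).prod

/-- (unnormalized) trace of the word in the generic matrices -/
noncomputable def Tm {ι : Type} (k : ℕ) (w : List ι) :
    MvPolynomial (ι × (Fin k × Fin k)) ℂ :=
  (Wm w).trace

/-- expectation of a product of normalized traces -/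
noncomputable def fk {ι : Type} [Fintype ι] (k : ℕ) (L : List (List ι)) : ℂ :=
  EP ((L.map (Tm k)).prod) / (k : ℂ) ^ L.length

/-- operator norm at most `R` -/
def opLe {k : ℕ} (A : Matrix (Fin k) (Fin k) ℂ) (R : ℝ) : Prop :=
  ∀ x : Fin k → ℂ, ∑ i, ‖A.mulVec x i‖ ^ 2 ≤ R ^ 2 * ∑ i, ‖x i‖ ^ 2

/-- quadratic form -/
noncomputable def quad {k : ℕ} (x : Fin k → ℂ) (A : Matrix (Fin k) (Fin k) ℂ) : ℂ :=
  star x ⬝ᵥ A.mulVec x

end P087.GU
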