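import Vale.Agent.Lib.P087.G.Ibp
import Vale.Agent.Lib.P087.G.Basis

/-! P087 G/Eval: evaluation of the generic words; second moments. -/

open MeasureTheory ProbabilityTheory Matrix MvPolynomial

namespace P087.GU

variable {ι : Type} [Fintype ι] [DecidableEq ι] {k : ℕ}

omit [Fintype ι] [DecidableEq ι] in
private theorem ev_Gm (v : ι → Fin k × Fin k → ℝ) (i : ι) :
    (Gm i : Matrix (Fin k) (Fin k) (MvPolynomial (ι × (Fin k × Fin k)) ℂ)).map
      (eval (fun s : ι × (Fin k × Fin k) => ((v s.1 s.2 : ℝ) : ℂ))) = herm (v i) := by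
  rw [herm_eq_sum]
  ext a b
  unfold Gm
  simp only [Matrix.map_apply, Matrix.sum_apply, Matrix.smul_apply, map_sum, smul_eq_mul,
    map_mul, eval_X, eval_C]

omit [Fintype ι] [DecidableEq ι] in
private theorem ev_Wm (v : ι → Fin k × Fin k → ℝ) (w : List ι) :
    (Wm w : Matrix (Fin k) (Fin k) (MvPolynomial (ι × (Fin k × Fin k)) ℂ)).map
      (eval (fun s : ι × (Fin k × Fin k) => ((v s.1 s.2 : ℝ) : ℂ))) =
      mw (fun i => herm (v i)) w := by
  induction w with
  | nil =>
    unfold Wm mw
    simp only [List.map_nil, List.prod_nil]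
    rw [← RingHom.mapMatrix_apply, map_one]
  | cons i w ih =>
    unfold Wm mw at ih ⊢
    simp only [List.map_cons, List.prod_cons]
    rw [Matrix.map_mul, ih, ev_Gm]

theorem evc_Tm (v : ι → Fin k × Fin k → ℝ) (w : List ι) :
    evc v (Tm k w) = (mw (fun i => herm (v i)) w).trace := by
  unfold evc Tm
  rw [← ev_Wm]
  simp only [Matrix.trace, map_sum, Matrix.diag_apply, Matrix.map_apply]

theorem star_trk_mw (v : ι → Fin k × Fin k → ℝ) (w : List ι) :
    star (trk (mw (fun i => herm (v i)) w)) = trk (mw (fun i => herm (v i)) w.reverse) := by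
  have h1 : (mw (fun i => herm (v i)) w)ᴴ = mw (fun i => herm (v i)) w.reverse := by
    unfold mw
    rw [Matrix.conjTranspose_list_prod, List.map_map, List.map_reverse]
    congr 2
    refine List.map_congr_left fun i _ => ?_
    exact herm_conjTranspose (v i)
  unfold trk
  rw [← h1, Matrix.trace_conjTranspose, star_div₀, star_natCast]

/-- the polynomial of the squared deviation -/
private noncomputable def Pdev (k : ℕ) (w : List ι) (a : ℝ) :
    MvPolynomial (ι × (Fin k × Fin k)) ℂ :=
  C (1 / (k : ℂ) ^ 2) * (Tm k w * Tm k w.reverse) +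
    (C (-(a : ℂ) / (k : ℂ)) * (Tm k w + Tm k w.reverse) + C ((a : ℂ) ^ 2) * 1)

private theorem evc_Pdev (v : ι → Fin k × Fin k → ℝ) (w : List ι) (a : ℝ) :
    evc v (Pdev k w a) = ((‖trk (mw (fun i => herm (v i)) w) - a‖ ^ 2 : ℝ) : ℂ) := by
  have e1 : ((‖trk (mw (fun i => herm (v i)) w) - a‖ ^ 2 : ℝ) : ℂ) =
      (trk (mw (fun i => herm (v i)) w) - a) *
        star (trk (mw (fun i => herm (v i)) w) - a) := by
    rw [Complex.star_def, Complex.mul_conj, Complex.normSq_eq_norm_sq]
  have e2 : star (trk (mw (fun i => herm (v i)) w) - (a : ℂ)) =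
      trk (mw (fun i => herm (v i)) w.reverse) - a := by
    rw [star_sub, star_trk_mw, Complex.star_def, Complex.conj_ofReal]
  rw [e1, e2]
  have h1 := evc_Tm v w
  have h2 := evc_Tm v w.reverse
  unfold evc at h1 h2
  unfold evc Pdev trk
  simp only [map_add, map_mul, eval_C, map_one, h1, h2]
  ring

/-- second moment of the deviation -/
theorem integral_dev (w : List ι) (a : ℝ) :
    ((∫ v, ‖trk (mw (fun i => herm (v i)) w) - a‖ ^ 2 ∂(gm ι k) : ℝ) : ℂ) =
      fk k [w, w.reverse] - a * (fk k [w] + fk k [w.reverse]) + a ^ 2 := by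
  rw [← integral_complex_ofReal]
  have h1 : ∫ v, ((‖trk (mw (fun i => herm (v i)) w) - a‖ ^ 2 : ℝ) : ℂ) ∂(gm ι k) =
      EP (Pdev k w a) := by
    unfold EP
    exact integral_congr_ae (Filter.Eventually.of_forall fun v => (evc_Pdev v w a).symm)
  rw [h1]
  unfold Pdev
  rw [EP_add, EP_add, EP_C_mul, EP_C_mul, EP_C_mul, EP_one, EP_add]
  unfold fk
  simp only [List.map_cons, List.map_nil, List.prod_cons, List.prod_nil, mul_one,
    List.length_cons, List.length_nil]
  ring

theorem integrable_dev (w : List ι) (a : ℝ) :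
    Integrable (fun v => ‖trk (mw (fun i => herm (v i)) w) - a‖ ^ 2) (gm ι k) := by
  have h := (EP_integrable (Pdev k w a)).re
  refine h.congr (Filter.Eventually.of_forall fun v => ?_)
  simp only [evc_Pdev]
  exact Complex.ofReal_re _

end P087.GU
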