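import Vale.Agent.Lib.P087.G.Mom

/-! P087 G/Ibp: expectation of polynomials in independent Gaussians, integration by parts.
`evc v (monomial e c)` is `c` times a double product, `integral_fintype_prod_eq_prod` (twice)
factorizes its integral; the one-dimensional facts are `g1_integrable_pow`, `g1_mom_one`,
`g1_mom_rec`. -/

open MeasureTheory ProbabilityTheory Matrix MvPolynomial

namespace P087.GU

variable {ι : Type} [Fintype ι] [DecidableEq ι] {k : ℕ}

instance gm_isProb (k : ℕ) : IsProbabilityMeasure (gm ι k) := by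
  unfold gm
  infer_instance

omit [DecidableEq ι] in
private lemma ibp_evc_monomial (v : ι → Fin k × Fin k → ℝ) (e : ι × (Fin k × Fin k) →₀ ℕ)
    (c : ℂ) : evc v (monomial e c) = c * ∏ i, ∏ p, ((v i p : ℝ) : ℂ) ^ (e (i, p)) := by
  unfold evc
  rw [eval_monomial, Finsupp.prod_fintype _ _ (fun _ => pow_zero _), Fintype.prod_prod_type]

omit [Fintype ι] [DecidableEq ι] in
private lemma ibp_evc_add (v : ι → Fin k × Fin k → ℝ)
    (P Q : MvPolynomial (ι × (Fin k × Fin k)) ℂ) : evc v (P + Q) = evc v P + evc v Q := by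
  unfold evc
  exact map_add _ _ _

private lemma ibp_int1 (s : NNReal) (n : ℕ) :
    Integrable (fun x : ℝ => ((x : ℝ) : ℂ) ^ n) (gaussianReal 0 s) := by
  have h := (g1_integrable_pow s n).ofReal (𝕜 := ℂ)
  simpa using h

private lemma ibp_int2 (e : Fin k × Fin k → ℕ) :
    Integrable (fun x : Fin k × Fin k → ℝ => ∏ p, ((x p : ℝ) : ℂ) ^ (e p))
      (Measure.pi fun _ : Fin k × Fin k => gaussianReal 0 (1 / (k : NNReal))) :=
  Integrable.fintype_prod_dep (f := fun p (y : ℝ) => ((y : ℝ) : ℂ) ^ (e p))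
    fun _ => ibp_int1 _ _

omit [DecidableEq ι] in
private lemma ibp_int3 (e : ι → Fin k × Fin k → ℕ) :
    Integrable (fun v : ι → Fin k × Fin k → ℝ => ∏ i, ∏ p, ((v i p : ℝ) : ℂ) ^ (e i p))
      (gm ι k) :=
  Integrable.fintype_prod_dep
    (f := fun i (x : Fin k × Fin k → ℝ) => ∏ p, ((x p : ℝ) : ℂ) ^ (e i p))
    fun i => ibp_int2 (e i)

/-- one-dimensional complex moments -/
private noncomputable def ibpM (k n : ℕ) : ℂ :=
  ∫ x : ℝ, ((x : ℝ) : ℂ) ^ n ∂(gaussianReal 0 (1 / (k : NNReal)))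

private lemma ibp_EP_monomial (e : ι × (Fin k × Fin k) →₀ ℕ) (c : ℂ) :
    EP (monomial e c) = c * ∏ s, ibpM k (e s) := by
  unfold EP
  have h1 : (fun v : ι → Fin k × Fin k → ℝ => evc v (monomial e c)) =
      fun v => c * ∏ i, ∏ p, ((v i p : ℝ) : ℂ) ^ (e (i, p)) :=
    funext fun v => ibp_evc_monomial v e c
  rw [h1, integral_const_mul, Fintype.prod_prod_type]
  congr 1
  have h2 := integral_fintype_prod_eq_prod (𝕜 := ℂ)
    (μ := fun _ : ι => (Measure.pi fun _ : Fin k × Fin k => gaussianReal 0 (1 / (k : NNReal))))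
    (fun i (x : Fin k × Fin k → ℝ) => ∏ p, ((x p : ℝ) : ℂ) ^ (e (i, p)))
  refine Eq.trans h2 (Finset.prod_congr rfl fun i _ => ?_)
  exact integral_fintype_prod_eq_prod (𝕜 := ℂ)
    (μ := fun _ : Fin k × Fin k => gaussianReal 0 (1 / (k : NNReal)))
    (fun p (y : ℝ) => ((y : ℝ) : ℂ) ^ (e (i, p)))

private lemma ibpM_one (k : ℕ) : ibpM k 1 = 0 := by
  unfold ibpM
  simp only [pow_one]
  rw [integral_complex_ofReal, g1_mom_one, Complex.ofReal_zero]

private lemma ibpM_zero (k : ℕ) : ibpM k 0 = 1 := by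
  unfold ibpM
  simp

private lemma ibpM_rec (k n : ℕ) : ibpM k (n + 2) = (1 / (k : ℂ)) * ((n + 1 : ℕ) * ibpM k n) := by
  have hr : ∀ m : ℕ, ibpM k m =
      ((∫ x : ℝ, x ^ m ∂(gaussianReal 0 (1 / (k : NNReal))) : ℝ) : ℂ) := by
    intro m
    unfold ibpM
    rw [← integral_complex_ofReal]
    simp only [Complex.ofReal_pow]
  rw [hr, hr, g1_mom_rec]
  push_cast
  ring

private lemma ibpM_step (k n : ℕ) : ibpM k (n + 1) = (1 / (k : ℂ)) * (n * ibpM k (n - 1)) := by
  rcases n with _ | n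
  · rw [zero_add, ibpM_one]
    simp
  · rw [ibpM_rec, Nat.add_sub_cancel]

theorem EP_integrable (P : MvPolynomial (ι × (Fin k × Fin k)) ℂ) :
    Integrable (fun v => evc v P) (gm ι k) := by
  induction P using MvPolynomial.induction_on' with
  | monomial e c =>
    have h1 : (fun v : ι → Fin k × Fin k → ℝ => evc v (monomial e c)) =
        fun v => c * ∏ i, ∏ p, ((v i p : ℝ) : ℂ) ^ (e (i, p)) :=
      funext fun v => ibp_evc_monomial v e c
    rw [h1]
    exact (ibp_int3 fun i p => e (i, p)).const_mul c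
  | add P Q hP hQ =>
    have h1 : (fun v : ι → Fin k × Fin k → ℝ => evc v (P + Q)) =
        fun v => evc v P + evc v Q := funext fun v => ibp_evc_add v P Q
    rw [h1]
    exact hP.add hQ

theorem EP_add (P Q : MvPolynomial (ι × (Fin k × Fin k)) ℂ) : EP (P + Q) = EP P + EP Q := by
  unfold EP
  rw [← integral_add (EP_integrable P) (EP_integrable Q)]
  simp only [ibp_evc_add]

theorem EP_C_mul (a : ℂ) (P : MvPolynomial (ι × (Fin k × Fin k)) ℂ) :
    EP (C a * P) = a * EP P := by
  unfold EP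
  rw [← integral_const_mul]
  congr 1
  funext v
  unfold evc
  rw [map_mul, eval_C]

theorem EP_sum {τ : Type*} (s : Finset τ) (P : τ → MvPolynomial (ι × (Fin k × Fin k)) ℂ) :
    EP (∑ i ∈ s, P i) = ∑ i ∈ s, EP (P i) := by
  classical
  induction s using Finset.induction_on with
  | empty =>
    rw [Finset.sum_empty, Finset.sum_empty]
    unfold EP evc
    simp
  | insert a s ha ih => rw [Finset.sum_insert ha, Finset.sum_insert ha, EP_add, ih]

theorem EP_one : EP (1 : MvPolynomial (ι × (Fin k × Fin k)) ℂ) = 1 := by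
  unfold EP evc
  simp

/-- Gaussian integration by parts -/
theorem EP_ibp (s : ι × (Fin k × Fin k)) (P : MvPolynomial (ι × (Fin k × Fin k)) ℂ) :
    EP (X s * P) = (1 / (k : ℂ)) * EP (pderiv s P) := by
  induction P using MvPolynomial.induction_on' with
  | monomial e c =>
    have h1 : (X s * monomial e c : MvPolynomial (ι × (Fin k × Fin k)) ℂ) =
        monomial (e + Finsupp.single s 1) c := by
      rw [mul_comm, ← pow_one (X s : MvPolynomial (ι × (Fin k × Fin k)) ℂ),
        ← monomial_add_single]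
    rw [h1, pderiv_monomial, ibp_EP_monomial, ibp_EP_monomial]
    have h2 : ∀ g : ι × (Fin k × Fin k) → ℂ, ∏ t, g t = g s * ∏ t ∈ Finset.univ.erase s, g t :=
      fun g => (Finset.mul_prod_erase _ _ (Finset.mem_univ s)).symm
    rw [h2, h2 fun t => ibpM k ((e - Finsupp.single s 1 : ι × (Fin k × Fin k) →₀ ℕ) t)]
    have h3 : (e + Finsupp.single s 1 : ι × (Fin k × Fin k) →₀ ℕ) s = e s + 1 := by simp
    have h4 : (e - Finsupp.single s 1 : ι × (Fin k × Fin k) →₀ ℕ) s = e s - 1 := by simp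
    have h5 : ∏ t ∈ Finset.univ.erase s,
          ibpM k ((e + Finsupp.single s 1 : ι × (Fin k × Fin k) →₀ ℕ) t) =
        ∏ t ∈ Finset.univ.erase s,
          ibpM k ((e - Finsupp.single s 1 : ι × (Fin k × Fin k) →₀ ℕ) t) := by
      refine Finset.prod_congr rfl fun t ht => ?_
      have hne : t ≠ s := Finset.ne_of_mem_erase ht
      rw [Finsupp.add_apply, Finsupp.tsub_apply, Finsupp.single_eq_of_ne hne, add_zero, tsub_zero]
    rw [h3, h4, h5, ibpM_step]
    ring
  | add P Q hP hQ => rw [mul_add, EP_add, hP, hQ, map_add, EP_add, mul_add]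

end P087.GU
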