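import Vale.Agent.Lib.P087.G.SD

/-! P087 G/Lim: the limit of `fk`. Strong induction on (total number of letters) + (number of words),
with `fk_rec`, `fk_nil_cons`. -/

open MeasureTheory ProbabilityTheory Matrix MvPolynomial Filter Topology

namespace P087.GU

variable {ι : Type} [Fintype ι] [DecidableEq ι]

omit [Fintype ι] in
theorem splits_length (i : ι) (w : List ι) (q : List ι × List ι) (hq : q ∈ splits i w) :
    q.1.length + q.2.length + 1 = w.length := by
  induction w generalizing q with
  | nil => simp [splits] at hq
  | cons j w ih =>
    rw [splits, List.mem_append] at hq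
    rcases hq with hq | hq
    · by_cases hij : i = j
      · rw [if_pos hij, List.mem_singleton] at hq
        subst hq
        simp
      · rw [if_neg hij] at hq
        simp at hq
    · rw [List.mem_map] at hq
      obtain ⟨q', hq', rfl⟩ := hq
      have := ih q' hq'
      simp only [List.length_cons]
      omega

theorem list_sum_cast_mul {α : Type} (l : List α) (f : α → ℝ) (c : ℂ) :
    (((l.map f).sum : ℝ) : ℂ) * c = (l.map fun q => (f q : ℂ) * c).sum := by
  induction l with
  | nil => simp
  | cons a l ih =>
    simp only [List.map_cons, List.sum_cons, Complex.ofReal_add, add_mul]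
    rw [ih]

theorem fk_tendsto_aux (tau : List ι → ℝ) (h0 : tau [] = 1)
    (h1 : ∀ i w, tau (i :: w) = ((splits i w).map fun q => tau q.1 * tau q.2).sum) (n : ℕ) :
    ∀ L : List (List ι), (L.map List.length).sum + L.length ≤ n →
    Tendsto (fun k => fk k L) atTop (𝓝 ((L.map fun w => (tau w : ℂ)).prod)) := by
  induction n with
  | zero =>
    intro L hL
    have hL0 : L = [] := List.length_eq_zero_iff.mp (by omega)
    subst hL0
    simp only [fk_nil, List.map_nil, List.prod_nil]
    exact tendsto_const_nhds
  | succ n ih =>
    intro L hL
    match L, hL with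
    | [], _ =>
      simp only [fk_nil, List.map_nil, List.prod_nil]
      exact tendsto_const_nhds
    | [] :: L, hL =>
      have h2 := ih L (by
        simp only [List.map_cons, List.sum_cons, List.length_cons, List.length_nil] at hL
        omega)
      simp only [List.map_cons, List.prod_cons, h0, Complex.ofReal_one, one_mul]
      refine (tendsto_congr' ?_).mp h2
      filter_upwards [eventually_gt_atTop 0] with k hk
      exact (fk_nil_cons k hk L).symm
    | (i :: w) :: L, hL =>
      simp only [List.map_cons, List.sum_cons, List.length_cons] at hL
      have hA : Tendsto (fun k => ((splits i w).map fun q => fk k (q.1 :: q.2 :: L)).sum) atTop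
          (𝓝 (((splits i w).map fun q => ((tau q.1 * tau q.2 : ℝ) : ℂ) *
            (L.map fun w => (tau w : ℂ)).prod).sum)) := by
        refine tendsto_list_sum (f := fun (q : List ι × List ι) (k : ℕ) => fk k (q.1 :: q.2 :: L))
          (a := fun q => ((tau q.1 * tau q.2 : ℝ) : ℂ) * (L.map fun w => (tau w : ℂ)).prod)
          (splits i w) ?_
        intro q hq
        have hlen := splits_length i w q hq
        have h2 := ih (q.1 :: q.2 :: L) (by
          simp only [List.map_cons, List.sum_cons, List.length_cons]
          omega)
        simp only [List.map_cons, List.prod_cons] at h2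
        push_cast
        rw [mul_assoc]
        exact h2
      have hB : ∃ b : ℂ, Tendsto (fun k => ∑ l : Fin L.length,
          ((splits i (L.get l)).map fun q => fk k ((w ++ q.2 ++ q.1) :: L.eraseIdx l)).sum) atTop
          (𝓝 b) := by
        refine ⟨∑ l : Fin L.length, ((splits i (L.get l)).map fun q =>
          ((((w ++ q.2 ++ q.1) :: L.eraseIdx l).map fun w => (tau w : ℂ)).prod)).sum, ?_⟩
        refine tendsto_finsetSum _ fun l _ => ?_
        refine tendsto_list_sum
          (f := fun (q : List ι × List ι) (k : ℕ) => fk k ((w ++ q.2 ++ q.1) :: L.eraseIdx l))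
          (a := fun q => ((((w ++ q.2 ++ q.1) :: L.eraseIdx l).map fun w => (tau w : ℂ)).prod))
          (splits i (L.get l)) ?_
        intro q hq
        have hlen := splits_length i _ q hq
        refine ih _ ?_
        have hperm := List.getElem_cons_eraseIdx_perm (l := L) l.2
        have hs := (hperm.map List.length).sum_eq
        have he := List.length_eraseIdx_add_one (l := L) (i := l) l.2
        simp only [List.map_cons, List.sum_cons] at hs
        simp only [List.map_cons, List.sum_cons, List.length_cons, List.length_append]
        rw [List.get_eq_getElem] at hlen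
        omega
      obtain ⟨b, hB⟩ := hB
      have hC : Tendsto (fun k : ℕ => (1 / (k : ℂ) ^ 2)) atTop (𝓝 0) := by
        have h3 := (tendsto_inv_atTop_nhds_zero_nat (𝕜 := ℂ)).pow 2
        simp only [ne_eq, OfNat.ofNat_ne_zero, not_false_eq_true, zero_pow] at h3
        refine h3.congr fun k => ?_
        rw [one_div, inv_pow]
      have hD := hA.add (hC.mul hB)
      rw [zero_mul, add_zero] at hD
      have hE : ((((i :: w) :: L).map fun w => (tau w : ℂ)).prod) =
          ((splits i w).map fun q => ((tau q.1 * tau q.2 : ℝ) : ℂ) *
            (L.map fun w => (tau w : ℂ)).prod).sum := by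
        simp only [List.map_cons, List.prod_cons]
        rw [h1, list_sum_cast_mul]
      rw [hE]
      refine (tendsto_congr' ?_).mp hD
      filter_upwards [eventually_gt_atTop 0] with k hk
      exact (fk_rec k hk i w L).symm

theorem fk_tendsto (tau : List ι → ℝ) (h0 : tau [] = 1)
    (h1 : ∀ i w, tau (i :: w) = ((splits i w).map fun q => tau q.1 * tau q.2).sum)
    (L : List (List ι)) :
    Tendsto (fun k => fk k L) atTop (𝓝 ((L.map fun w => (tau w : ℂ)).prod)) :=
  fk_tendsto_aux tau h0 h1 _ L le_rfl

end P087.GU
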