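import Vale.Agent.Lib.P087.G.Defs

/-! P087 G/Mom: one-dimensional Gaussian moments. -/

open MeasureTheory ProbabilityTheory

namespace P087.GU

theorem g1_integrable_pow (s : NNReal) (n : ℕ) :
    Integrable (fun x : ℝ => x ^ n) (gaussianReal 0 s) := by
  refine integrable_pow_of_mem_interior_integrableExpSet (X := fun x : ℝ => x) ?_ n
  rw [integrableExpSet_fun_id_gaussianReal]
  simp

theorem g1_mom_one (s : NNReal) : ∫ x : ℝ, x ∂(gaussianReal 0 s) = 0 :=
  integral_id_gaussianReal

/-- integration by parts for monomials -/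
theorem g1_mom_rec (s : NNReal) (n : ℕ) : ∫ x : ℝ, x ^ (n + 2) ∂(gaussianReal 0 s) =
    (n + 1) * s * ∫ x : ℝ, x ^ n ∂(gaussianReal 0 s) := by
  rcases eq_or_ne s 0 with rfl | hs
  · simp
  have hs0 : (s : ℝ) ≠ 0 := by exact_mod_cast hs
  have hint : ∀ m : ℕ, Integrable (fun x : ℝ => gaussianPDFReal 0 s x * x ^ m) := by
    intro m
    have h := g1_integrable_pow s m
    rw [gaussianReal_of_var_ne_zero _ hs, integrable_withDensity_iff_integrable_smul'
      (measurable_gaussianPDF 0 s) (Filter.Eventually.of_forall fun _ => gaussianPDF_lt_top)] at h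
    refine h.congr (Filter.Eventually.of_forall fun x => ?_)
    simp [gaussianPDF, smul_eq_mul, ENNReal.toReal_ofReal (gaussianPDFReal_nonneg 0 s x)]
  have hder : ∀ x : ℝ, HasDerivAt (fun x => -(s : ℝ) * gaussianPDFReal 0 s x)
      (gaussianPDFReal 0 s x * x) x := by
    intro x
    have h1 : HasDerivAt (fun x : ℝ => -(x - 0) ^ 2 / (2 * (s : ℝ))) (-(2 * x) / (2 * (s : ℝ))) x := by
      have h0 : HasDerivAt (fun x : ℝ => (x - 0) ^ 2) (2 * x) x := by
        simpa using hasDerivAt_pow 2 x
      exact (h0.neg).div_const _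
    have h2 := ((h1.exp).const_mul ((Real.sqrt (2 * Real.pi * s))⁻¹)).const_mul (-(s : ℝ))
    have h3 : -(s : ℝ) * ((Real.sqrt (2 * Real.pi * s))⁻¹ * (Real.exp (-(x - 0) ^ 2 / (2 * (s : ℝ)))
        * (-(2 * x) / (2 * (s : ℝ))))) = gaussianPDFReal 0 s x * x := by
      unfold gaussianPDFReal
      field_simp
    rw [h3] at h2
    exact h2
  have hpow : ∀ x : ℝ, HasDerivAt (fun x : ℝ => x ^ (n + 1)) (((n : ℝ) + 1) * x ^ n) x := by
    intro x
    simpa using hasDerivAt_pow (n + 1) x
  have key := integral_mul_deriv_eq_deriv_mul_of_integrable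
    (u := fun x : ℝ => x ^ (n + 1)) (u' := fun x : ℝ => ((n : ℝ) + 1) * x ^ n)
    (v := fun x => -(s : ℝ) * gaussianPDFReal 0 s x) (v' := fun x => gaussianPDFReal 0 s x * x)
    (fun x _ => hpow x) (fun x _ => hder x)
    ((hint (n + 2)).congr (Filter.Eventually.of_forall fun x => by
      simp only [Pi.mul_apply]; ring))
    (((hint n).const_mul (-(s : ℝ) * ((n : ℝ) + 1))).congr (Filter.Eventually.of_forall fun x => by
      simp only [Pi.mul_apply]; ring))
    (((hint (n + 1)).const_mul (-(s : ℝ))).congr (Filter.Eventually.of_forall fun x => by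
      simp only [Pi.mul_apply]; ring))
  rw [integral_gaussianReal_eq_integral_smul hs, integral_gaussianReal_eq_integral_smul hs,
    ← integral_const_mul]
  have e1 : ∫ x : ℝ, gaussianPDFReal 0 s x • x ^ (n + 2)
      = ∫ x : ℝ, x ^ (n + 1) * (gaussianPDFReal 0 s x * x) := by
    refine integral_congr_ae (Filter.Eventually.of_forall fun x => ?_)
    simp only [smul_eq_mul]
    ring
  rw [e1, key, ← integral_neg]
  refine integral_congr_ae (Filter.Eventually.of_forall fun x => ?_)
  simp only [smul_eq_mul]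
  ring

end P087.GU
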