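import Vale.Agent.Lib.P087.G.Lim
import Vale.Agent.Lib.P087.G.Eval

/-! P087 G/Prob: law of large numbers for one word (Chebyshev). -/

open MeasureTheory ProbabilityTheory Matrix MvPolynomial Filter Topology

namespace P087.GU

variable {ι : Type} [Fintype ι] [DecidableEq ι]

theorem prob_word (tau : List ι → ℝ) (h0 : tau [] = 1)
    (h1 : ∀ i w, tau (i :: w) = ((splits i w).map fun q => tau q.1 * tau q.2).sum)
    (w : List ι) (ε : ℝ) (hε : 0 < ε) :
    Tendsto (fun k : ℕ => gm ι k {v | ε ≤ ‖trk (mw (fun i => herm (v i)) w) - tau w‖})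
      atTop (𝓝 0) := by
  have hD : Tendsto (fun k : ℕ => ((∫ v, ‖trk (mw (fun i => herm (v i)) w) - (tau w : ℝ)‖ ^ 2
      ∂(gm ι k) : ℝ) : ℂ)) atTop (𝓝 0) := by
    have t2 := fk_tendsto tau h0 h1 [w, w.reverse]
    have t1 := fk_tendsto tau h0 h1 [w]
    have t1r := fk_tendsto tau h0 h1 [w.reverse]
    simp only [List.map_cons, List.map_nil, List.prod_cons, List.prod_nil, mul_one] at t2 t1 t1r
    have t := (t2.sub ((t1.add t1r).const_mul (tau w : ℂ))).add_const ((tau w : ℂ) ^ 2)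
    have e : (tau w : ℂ) * (tau w.reverse : ℂ) - (tau w : ℂ) * ((tau w : ℂ) + (tau w.reverse : ℂ))
        + (tau w : ℂ) ^ 2 = 0 := by ring
    rw [e] at t
    refine t.congr fun k => ?_
    rw [integral_dev]
  have hR : Tendsto (fun k : ℕ => ∫ v, ‖trk (mw (fun i => herm (v i)) w) - (tau w : ℝ)‖ ^ 2
      ∂(gm ι k)) atTop (𝓝 0) := by
    have := (Complex.continuous_re.tendsto _).comp hD
    rw [Complex.zero_re] at this
    exact this
  have hM : ∀ k : ℕ, gm ι k {v | ε ≤ ‖trk (mw (fun i => herm (v i)) w) - tau w‖} ≤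
      ENNReal.ofReal ((∫ v, ‖trk (mw (fun i => herm (v i)) w) - (tau w : ℝ)‖ ^ 2 ∂(gm ι k))
        / ε ^ 2) := by
    intro k
    have hm := mul_meas_ge_le_integral_of_nonneg (μ := gm ι k)
      (Filter.Eventually.of_forall fun v => sq_nonneg ‖trk (mw (fun i => herm (v i)) w) - (tau w : ℝ)‖)
      (integrable_dev w (tau w)) (ε ^ 2)
    have hset : {v : ι → Fin k × Fin k → ℝ | ε ≤ ‖trk (mw (fun i => herm (v i)) w) - tau w‖}
        = {v | ε ^ 2 ≤ ‖trk (mw (fun i => herm (v i)) w) - (tau w : ℝ)‖ ^ 2} := by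
      ext v
      simp only [Set.mem_ofPred_eq]
      exact (pow_le_pow_iff_left₀ hε.le (norm_nonneg _) two_ne_zero).symm
    rw [hset, ← ofReal_measureReal]
    refine ENNReal.ofReal_le_ofReal ?_
    rw [le_div_iff₀ (by positivity), mul_comm]
    exact hm
  have hT : Tendsto (fun k : ℕ => ENNReal.ofReal
      ((∫ v, ‖trk (mw (fun i => herm (v i)) w) - (tau w : ℝ)‖ ^ 2 ∂(gm ι k)) / ε ^ 2))
      atTop (𝓝 0) := by
    have := (hR.div_const (ε ^ 2))
    rw [zero_div] at this
    have h2 := (ENNReal.continuous_ofReal.tendsto _).comp this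
    rw [ENNReal.ofReal_zero] at h2
    exact h2
  exact tendsto_of_tendsto_of_tendsto_of_le_of_le tendsto_const_nhds hT (fun _ => zero_le) hM

end P087.GU
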