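import Vale.Agent.Lib.P087.G.Basis

/-! P087 G/Quad: quadratic forms of the Gaussian matrix; tail bound. -/

open MeasureTheory ProbabilityTheory Matrix MvPolynomial

namespace P087.GU

variable {k : ℕ}

private theorem quad_eq (x : Fin k → ℂ) (A : Matrix (Fin k) (Fin k) ℂ) :
    quad x A = ∑ i, ∑ j, star (x i) * A i j * x j := by
  unfold quad dotProduct mulVec dotProduct
  refine Finset.sum_congr rfl fun i _ => ?_
  rw [Finset.mul_sum]
  refine Finset.sum_congr rfl fun j _ => ?_
  rw [Pi.star_apply, mul_assoc]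

private theorem quad_star (x : Fin k → ℂ) (A : Matrix (Fin k) (Fin k) ℂ) :
    star (quad x A) = quad x Aᴴ := by
  rw [quad_eq, quad_eq, star_sum]
  simp only [star_sum]
  rw [Finset.sum_comm]
  refine Finset.sum_congr rfl fun i _ => Finset.sum_congr rfl fun j _ => ?_
  rw [star_mul', star_mul', star_star, conjTranspose_apply]
  ring

private theorem quad_im (x : Fin k → ℂ) {A : Matrix (Fin k) (Fin k) ℂ} (hA : Aᴴ = A) :
    quad x A = ((quad x A).re : ℂ) := by
  have h := quad_star x A
  rw [hA] at h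
  exact (Complex.conj_eq_iff_re.1 h).symm

private theorem quad_Bm (x : Fin k → ℂ) (p : Fin k × Fin k) :
    quad x (Bm p) = ((quad x (Bm p)).re : ℂ) := quad_im x (herm_conjTranspose (Pi.single p 1))

theorem quad_herm (x : Fin k → ℂ) (v : Fin k × Fin k → ℝ) :
    quad x (herm v) = ((∑ p, (quad x (Bm p)).re * v p : ℝ) : ℂ) := by
  have h1 : quad x (herm v) = ∑ p, (v p : ℂ) * quad x (Bm p) := by
    rw [herm_eq_sum, quad_eq]
    simp only [quad_eq, Matrix.sum_apply, Matrix.smul_apply, smul_eq_mul, Finset.mul_sum,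
      Finset.sum_mul]
    have h2 : ∀ i, ∑ j, ∑ p, star (x i) * ((v p : ℂ) * Bm p i j) * x j =
        ∑ p, ∑ j, star (x i) * ((v p : ℂ) * Bm p i j) * x j := fun i => Finset.sum_comm
    rw [Finset.sum_congr rfl fun i _ => h2 i, Finset.sum_comm]
    refine Finset.sum_congr rfl fun p _ => Finset.sum_congr rfl fun i _ =>
      Finset.sum_congr rfl fun j _ => ?_
    ring
  rw [h1]
  push_cast
  refine Finset.sum_congr rfl fun p _ => ?_
  rw [← quad_Bm, mul_comm]

theorem sum_quad_sq (x : Fin k → ℂ) :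
    ∑ p, (quad x (Bm p)).re ^ 2 = (∑ i, ‖x i‖ ^ 2) ^ 2 := by
  have h1 : ((∑ p, (quad x (Bm p)).re ^ 2 : ℝ) : ℂ) = (((∑ i, ‖x i‖ ^ 2) ^ 2 : ℝ) : ℂ) := by
    have h2 : ((∑ p, (quad x (Bm p)).re ^ 2 : ℝ) : ℂ) = ∑ p, quad x (Bm p) * quad x (Bm p) := by
      push_cast
      refine Finset.sum_congr rfl fun p _ => ?_
      rw [← quad_Bm, sq]
    rw [h2]
    have h3 : ∀ p : Fin k × Fin k, quad x (Bm p) * quad x (Bm p) =
        ∑ i, ∑ j, ∑ l, ∑ m, (star (x i) * x j * (star (x l) * x m)) * (Bm p i j * Bm p l m) := by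
      intro p
      rw [quad_eq, Finset.sum_mul]
      refine Finset.sum_congr rfl fun i _ => ?_
      rw [Finset.sum_mul]
      refine Finset.sum_congr rfl fun j _ => ?_
      rw [Finset.mul_sum]
      refine Finset.sum_congr rfl fun l _ => ?_
      rw [Finset.mul_sum]
      refine Finset.sum_congr rfl fun m _ => ?_
      ring
    rw [Finset.sum_congr rfl fun p _ => h3 p]
    rw [Finset.sum_comm]
    have h4 : ∀ i : Fin k, ∑ p : Fin k × Fin k, ∑ j, ∑ l, ∑ m,
        (star (x i) * x j * (star (x l) * x m)) * (Bm p i j * Bm p l m) =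
        ∑ j, star (x i) * x j * (star (x j) * x i) := by
      intro i
      rw [Finset.sum_comm]
      refine Finset.sum_congr rfl fun j _ => ?_
      rw [Finset.sum_comm]
      have h5 : ∀ l : Fin k, ∑ p : Fin k × Fin k, ∑ m,
          (star (x i) * x j * (star (x l) * x m)) * (Bm p i j * Bm p l m) =
          ∑ m, (star (x i) * x j * (star (x l) * x m)) * (if i = m ∧ j = l then 1 else 0) := by
        intro l
        rw [Finset.sum_comm]
        refine Finset.sum_congr rfl fun m _ => ?_
        rw [← Finset.mul_sum, Bm_fusion]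
      rw [Finset.sum_congr rfl fun l _ => h5 l, Finset.sum_eq_single j, Finset.sum_eq_single i]
      · rw [if_pos ⟨rfl, rfl⟩, mul_one]
      · intro m _ hm
        rw [if_neg (fun h => hm h.1.symm), mul_zero]
      · intro h
        exact absurd (Finset.mem_univ _) h
      · intro l _ hl
        refine Finset.sum_eq_zero fun m _ => ?_
        rw [if_neg (fun h => hl h.2.symm), mul_zero]
      · intro h
        exact absurd (Finset.mem_univ _) h
    rw [Finset.sum_congr rfl fun i _ => h4 i]
    push_cast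
    rw [sq, Finset.sum_mul_sum]
    refine Finset.sum_congr rfl fun i _ => Finset.sum_congr rfl fun j _ => ?_
    rw [← Complex.conj_mul', ← Complex.conj_mul']
    change (starRingEnd ℂ) (x i) * x j * ((starRingEnd ℂ) (x j) * x i) = _
    ring
  exact_mod_cast h1

section Tail

variable {J : Type} [Fintype J]

private theorem lin_integrable (s : NNReal) (a : J → ℝ) (t : ℝ) :
    Integrable (fun v : J → ℝ => Real.exp (t * ∑ p, a p * v p))
      (Measure.pi fun _ : J => gaussianReal 0 s) := by
  have h := Integrable.fintype_prod (μ := fun _ : J => gaussianReal 0 s)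
    (f := fun p y => Real.exp (t * a p * y)) fun p => integrable_exp_mul_gaussianReal (t * a p)
  refine h.congr (Filter.Eventually.of_forall fun v => ?_)
  change ∏ p, Real.exp (t * a p * v p) = Real.exp (t * ∑ p, a p * v p)
  rw [← Real.exp_sum, Finset.mul_sum]
  congr 1
  exact Finset.sum_congr rfl fun p _ => by ring

private theorem lin_mgf (s : NNReal) (a : J → ℝ) (t : ℝ) :
    ∫ v, Real.exp (t * ∑ p, a p * v p) ∂(Measure.pi fun _ : J => gaussianReal 0 s) =
      Real.exp (s * t ^ 2 / 2 * ∑ p, a p ^ 2) := by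
  have h := integral_fintype_prod_eq_prod (𝕜 := ℝ) (μ := fun _ : J => gaussianReal 0 s)
    (fun p y => Real.exp (t * a p * y))
  have h1 : ∀ p, ∫ y, Real.exp (t * a p * y) ∂(gaussianReal 0 s) =
      Real.exp (s * (t * a p) ^ 2 / 2) := by
    intro p
    have h2 := congrFun (mgf_id_gaussianReal (μ := 0) (v := s)) (t * a p)
    simpa [mgf] using h2
  simp only [h1] at h
  rw [← Real.exp_sum] at h
  have e1 : (fun v : J → ℝ => Real.exp (t * ∑ p, a p * v p)) =
      fun v : J → ℝ => ∏ p, Real.exp (t * a p * v p) := by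
    funext v
    rw [← Real.exp_sum, Finset.mul_sum]
    congr 1
    exact Finset.sum_congr rfl fun p _ => by ring
  rw [e1, h, Finset.mul_sum]
  congr 1
  exact Finset.sum_congr rfl fun p _ => by ring

private theorem lin_tail (hk : 0 < k) (a : J → ℝ) (ha : ∑ p, a p ^ 2 ≤ 1) :
    (Measure.pi fun _ : J => gaussianReal 0 (1 / (k : NNReal)))
      {v | 4 ≤ ∑ p, a p * v p} ≤ ENNReal.ofReal (Real.exp (-(8 * k))) := by
  have hk' : (0 : ℝ) < k := by exact_mod_cast hk
  have h := measure_ge_le_exp_mul_mgf (μ := Measure.pi fun _ : J => gaussianReal 0 (1 / (k : NNReal)))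
    (X := fun v : J → ℝ => ∑ p, a p * v p) (t := 4 * k) 4 (by positivity)
    (lin_integrable (1 / (k : NNReal)) a (4 * k))
  have h1 : mgf (fun v : J → ℝ => ∑ p, a p * v p)
      (Measure.pi fun _ : J => gaussianReal 0 (1 / (k : NNReal))) (4 * k) ≤
      Real.exp (8 * k) := by
    have h2 := lin_mgf (1 / (k : NNReal)) a (4 * k)
    unfold mgf
    rw [h2]
    apply Real.exp_le_exp.2
    have e1 : (((1 / (k : NNReal) : NNReal) : ℝ)) * (4 * k) ^ 2 / 2 = 8 * k := by
      push_cast
      field_simp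
      ring
    rw [e1]
    calc 8 * (k : ℝ) * ∑ p, a p ^ 2 ≤ 8 * k * 1 :=
          mul_le_mul_of_nonneg_left ha (by positivity)
      _ = 8 * k := mul_one _
  have h3 : (Measure.pi fun _ : J => gaussianReal 0 (1 / (k : NNReal))).real
      {v | 4 ≤ ∑ p, a p * v p} ≤ Real.exp (-(8 * k)) := by
    refine h.trans ?_
    calc Real.exp (-(4 * k) * 4) * mgf (fun v : J → ℝ => ∑ p, a p * v p)
          (Measure.pi fun _ : J => gaussianReal 0 (1 / (k : NNReal))) (4 * k)
        ≤ Real.exp (-(4 * k) * 4) * Real.exp (8 * k) :=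
          mul_le_mul_of_nonneg_left h1 (Real.exp_pos _).le
      _ = Real.exp (-(8 * k)) := by
          rw [← Real.exp_add]
          congr 1
          ring
  rw [← ofReal_measureReal]
  exact ENNReal.ofReal_le_ofReal h3

end Tail

/-- moment generating function (`mgf_gaussianReal`, `integral_fintype_prod_eq_prod`) and Chernoff -/
theorem tail_quad (hk : 0 < k) (x : Fin k → ℂ) (hx : ∑ i, ‖x i‖ ^ 2 ≤ 1) :
    (Measure.pi fun _ : Fin k × Fin k => gaussianReal 0 (1 / (k : NNReal)))
      {v | 4 ≤ |(quad x (herm v)).re|} ≤ ENNReal.ofReal (2 * Real.exp (-(8 * k))) := by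
  have ha : ∑ p, (quad x (Bm p)).re ^ 2 ≤ 1 := by
    rw [sum_quad_sq]
    have h0 : 0 ≤ ∑ i, ‖x i‖ ^ 2 := Finset.sum_nonneg fun i _ => by positivity
    nlinarith
  have hb : ∑ p, (-(quad x (Bm p)).re) ^ 2 ≤ 1 := by
    simpa only [neg_sq] using ha
  have h1 : {v | 4 ≤ |(quad x (herm v)).re|} ⊆
      {v | 4 ≤ ∑ p, (quad x (Bm p)).re * v p} ∪ {v | 4 ≤ ∑ p, -(quad x (Bm p)).re * v p} := by
    intro v hv
    have hv' : 4 ≤ |(quad x (herm v)).re| := hv
    rw [quad_herm, Complex.ofReal_re] at hv'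
    rcases le_abs.1 hv' with h | h
    · exact Or.inl h
    · refine Or.inr ?_
      change 4 ≤ ∑ p, -(quad x (Bm p)).re * v p
      rw [← Finset.sum_neg_distrib] at h
      simpa only [neg_mul] using h
  refine (measure_mono h1).trans ((measure_union_le _ _).trans ?_)
  refine (add_le_add (lin_tail hk _ ha) (lin_tail hk _ hb)).trans ?_
  rw [← ENNReal.ofReal_add (Real.exp_pos _).le (Real.exp_pos _).le, two_mul]

end P087.GU
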