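import Vale.Agent.Lib.P087.G.Basis

/-! P087 G/Words: derivatives and traces of words in the generic matrices (pure algebra). -/

open MeasureTheory ProbabilityTheory Matrix MvPolynomial

namespace P087.GU

variable {ι : Type} [Fintype ι] [DecidableEq ι] {k : ℕ}

omit [Fintype ι] [DecidableEq ι] in
private theorem wd_map_mul (s : ι × (Fin k × Fin k))
    (A B : Matrix (Fin k) (Fin k) (MvPolynomial (ι × (Fin k × Fin k)) ℂ)) :
    (A * B).map (pderiv s) = A.map (pderiv s) * B + A * B.map (pderiv s) := by
  ext1 a b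
  simp only [Matrix.map_apply, Matrix.mul_apply, Matrix.add_apply, map_sum, Derivation.leibniz,
    smul_eq_mul]
  rw [← Finset.sum_add_distrib]
  refine Finset.sum_congr rfl fun c _ => ?_
  ring

omit [Fintype ι] [DecidableEq ι] in
private theorem wd_map_C (s : ι × (Fin k × Fin k)) (A : Matrix (Fin k) (Fin k) ℂ) :
    (A.map (C : ℂ → MvPolynomial (ι × (Fin k × Fin k)) ℂ)).map (pderiv s) = 0 := by
  ext1 a b
  simp only [Matrix.map_apply, Matrix.zero_apply]
  exact pderiv_C

omit [Fintype ι] [DecidableEq ι] in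
private theorem wd_trace (s : ι × (Fin k × Fin k))
    (A : Matrix (Fin k) (Fin k) (MvPolynomial (ι × (Fin k × Fin k)) ℂ)) :
    pderiv s A.trace = (A.map (pderiv s)).trace := by
  simp [Matrix.trace, map_sum]

omit [Fintype ι] in
private theorem wd_Gm (s : ι × (Fin k × Fin k)) (j : ι) :
    (Gm j : Matrix (Fin k) (Fin k) (MvPolynomial (ι × (Fin k × Fin k)) ℂ)).map (pderiv s) =
      if s.1 = j then (Bm s.2).map C else 0 := by
  obtain ⟨i, p⟩ := s
  ext1 a b
  unfold Gm
  simp only [Matrix.map_apply, Matrix.sum_apply, Matrix.smul_apply, map_sum, smul_eq_mul,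
    Derivation.leibniz, pderiv_C, pderiv_X]
  by_cases hij : i = j
  · subst hij
    simp only [if_true, Matrix.map_apply]
    rw [Finset.sum_eq_single p]
    · simp
    · intro p' _ hp'
      rw [Pi.single_eq_of_ne]
      · simp
      · intro h
        exact hp' (Prod.ext_iff.1 h).2
    · intro h
      exact absurd (Finset.mem_univ p) h
  · rw [if_neg hij]
    simp only [Matrix.zero_apply]
    refine Finset.sum_eq_zero fun p' _ => ?_
    rw [Pi.single_eq_of_ne]
    · simp
    · intro h
      exact hij (Prod.ext_iff.1 h).1.symm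

omit [Fintype ι] [DecidableEq ι] in
private theorem wd_Wm_nil :
    (Wm ([] : List ι) : Matrix (Fin k) (Fin k) (MvPolynomial (ι × (Fin k × Fin k)) ℂ)) = 1 := rfl

omit [Fintype ι] [DecidableEq ι] in
private theorem wd_Wm_cons (j : ι) (w : List ι) :
    (Wm (j :: w) : Matrix (Fin k) (Fin k) (MvPolynomial (ι × (Fin k × Fin k)) ℂ)) =
      Gm j * Wm w := by
  unfold Wm
  rw [List.map_cons, List.prod_cons]

omit [Fintype ι] [DecidableEq ι] in
private theorem wd_Wm_append (u w : List ι) :
    (Wm (u ++ w) : Matrix (Fin k) (Fin k) (MvPolynomial (ι × (Fin k × Fin k)) ℂ)) =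
      Wm u * Wm w := by
  unfold Wm
  rw [List.map_append, List.prod_append]

omit [Fintype ι] in
private theorem wd_pderiv_Wm (s : ι × (Fin k × Fin k)) (w : List ι) :
    (Wm w).map (pderiv s) =
      ((splits s.1 w).map fun q => Wm q.1 * (Bm s.2).map C * Wm q.2).sum := by
  induction w with
  | nil =>
    rw [wd_Wm_nil]
    simp only [splits, List.map_nil, List.sum_nil]
    ext1 a b
    simp only [Matrix.map_apply, Matrix.zero_apply, Matrix.one_apply]
    split_ifs <;> simp
  | cons j w ih =>
    rw [wd_Wm_cons, wd_map_mul, ih, wd_Gm]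
    simp only [splits, List.map_append, List.sum_append, List.map_map]
    congr 1
    · split_ifs with h
      · simp [wd_Wm_nil]
      · simp
    · rw [← List.sum_map_mul_left]
      congr 1
      refine List.map_congr_left fun q _ => ?_
      simp only [Function.comp]
      rw [wd_Wm_cons]
      simp only [Matrix.mul_assoc]

theorem pderiv_Wm (s : ι × (Fin k × Fin k)) (w : List ι) :
    (Wm w).map (pderiv s) =
      ((splits s.1 w).map fun q => Wm q.1 * (Bm s.2).map C * Wm q.2).sum :=
  wd_pderiv_Wm s w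

private theorem wd_fusion_C (i j l m : Fin k) :
    ∑ p, (C (Bm p i j) * C (Bm p l m) : MvPolynomial (ι × (Fin k × Fin k)) ℂ) =
      if i = m ∧ j = l then 1 else 0 := by
  have h := congrArg (C : ℂ → MvPolynomial (ι × (Fin k × Fin k)) ℂ) (Bm_fusion i j l m)
  rw [map_sum] at h
  simp only [map_mul] at h
  rw [h]
  split_ifs <;> simp

theorem sum_trace_one (A B : Matrix (Fin k) (Fin k) (MvPolynomial (ι × (Fin k × Fin k)) ℂ)) :
    ∑ p : Fin k × Fin k, ((Bm p).map C * A * (Bm p).map C * B).trace = A.trace * B.trace := by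
  have h1 : ∀ p : Fin k × Fin k, ((Bm p).map C * A * (Bm p).map C * B).trace =
      ∑ a, ∑ d, ∑ c, ∑ b, (C (Bm p a b) * C (Bm p c d) :
        MvPolynomial (ι × (Fin k × Fin k)) ℂ) * (A b c * B d a) := by
    intro p
    simp only [Matrix.trace, Matrix.diag_apply, Matrix.mul_apply, Matrix.map_apply,
      Finset.sum_mul]
    refine Finset.sum_congr rfl fun a _ => Finset.sum_congr rfl fun d _ =>
      Finset.sum_congr rfl fun c _ => Finset.sum_congr rfl fun b _ => ?_
    ring
  simp_rw [h1]
  rw [Finset.sum_comm]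
  have h2 : ∀ a : Fin k, ∑ p : Fin k × Fin k, ∑ d, ∑ c, ∑ b, (C (Bm p a b) * C (Bm p c d) :
        MvPolynomial (ι × (Fin k × Fin k)) ℂ) * (A b c * B d a) = ∑ b, A b b * B a a := by
    intro a
    rw [Finset.sum_comm]
    have h3 : ∀ d : Fin k, ∑ p : Fin k × Fin k, ∑ c, ∑ b, (C (Bm p a b) * C (Bm p c d) :
        MvPolynomial (ι × (Fin k × Fin k)) ℂ) * (A b c * B d a) =
        ∑ c, ∑ b, (if a = d ∧ b = c then 1 else 0) * (A b c * B d a) := by
      intro d
      rw [Finset.sum_comm]
      refine Finset.sum_congr rfl fun c _ => ?_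
      rw [Finset.sum_comm]
      refine Finset.sum_congr rfl fun b _ => ?_
      rw [← Finset.sum_mul, wd_fusion_C]
    simp_rw [h3]
    rw [Finset.sum_eq_single a]
    · refine Finset.sum_congr rfl fun c _ => ?_
      rw [Finset.sum_eq_single c]
      · simp
      · intro b _ hb
        simp [hb]
      · intro h
        exact absurd (Finset.mem_univ c) h
    · intro d _ hd
      refine Finset.sum_eq_zero fun c _ => Finset.sum_eq_zero fun b _ => ?_
      simp [Ne.symm hd]
    · intro h
      exact absurd (Finset.mem_univ a) h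
  simp_rw [h2]
  simp only [Matrix.trace, Matrix.diag_apply]
  rw [Finset.sum_mul_sum, Finset.sum_comm]

theorem sum_trace_two (A B : Matrix (Fin k) (Fin k) (MvPolynomial (ι × (Fin k × Fin k)) ℂ)) :
    ∑ p : Fin k × Fin k, ((Bm p).map C * A).trace * ((Bm p).map C * B).trace =
      (A * B).trace := by
  have h1 : ∀ p : Fin k × Fin k, ((Bm p).map C * A).trace * ((Bm p).map C * B).trace =
      ∑ a, ∑ b, ∑ c, ∑ d, (C (Bm p a b) * C (Bm p c d) :
        MvPolynomial (ι × (Fin k × Fin k)) ℂ) * (A b a * B d c) := by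
    intro p
    rw [mul_comm]
    simp only [Matrix.trace, Matrix.diag_apply, Matrix.mul_apply, Matrix.map_apply,
      Finset.sum_mul, Finset.mul_sum]
    refine Finset.sum_congr rfl fun a _ => Finset.sum_congr rfl fun b _ =>
      Finset.sum_congr rfl fun c _ => Finset.sum_congr rfl fun d _ => ?_
    ring
  simp_rw [h1]
  rw [Finset.sum_comm]
  have h2 : ∀ a : Fin k, ∑ p : Fin k × Fin k, ∑ b, ∑ c, ∑ d, (C (Bm p a b) * C (Bm p c d) :
        MvPolynomial (ι × (Fin k × Fin k)) ℂ) * (A b a * B d c) = ∑ b, A b a * B a b := by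
    intro a
    rw [Finset.sum_comm]
    refine Finset.sum_congr rfl fun b _ => ?_
    rw [Finset.sum_comm]
    have h3 : ∀ c : Fin k, ∑ p : Fin k × Fin k, ∑ d, (C (Bm p a b) * C (Bm p c d) :
        MvPolynomial (ι × (Fin k × Fin k)) ℂ) * (A b a * B d c) =
        ∑ d, (if a = d ∧ b = c then 1 else 0) * (A b a * B d c) := by
      intro c
      rw [Finset.sum_comm]
      refine Finset.sum_congr rfl fun d _ => ?_
      rw [← Finset.sum_mul, wd_fusion_C]
    simp_rw [h3]
    rw [Finset.sum_eq_single b]
    · rw [Finset.sum_eq_single a]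
      · simp
      · intro d _ hd
        simp [Ne.symm hd]
      · intro h
        exact absurd (Finset.mem_univ a) h
    · intro c _ hc
      refine Finset.sum_eq_zero fun d _ => ?_
      simp [Ne.symm hc]
    · intro h
      exact absurd (Finset.mem_univ b) h
  simp_rw [h2]
  simp only [Matrix.trace, Matrix.diag_apply, Matrix.mul_apply]
  rw [Finset.sum_comm]

theorem Tm_nil (k : ℕ) : Tm k ([] : List ι) = C (k : ℂ) := by
  unfold Tm
  rw [wd_Wm_nil, Matrix.trace_one]
  simp

theorem Tm_cons (k : ℕ) (i : ι) (w : List ι) :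
    Tm k (i :: w) = ∑ p : Fin k × Fin k, X (i, p) * ((Bm p).map C * Wm w).trace := by
  unfold Tm
  rw [wd_Wm_cons]
  unfold Gm
  rw [Finset.sum_mul, Matrix.trace_sum]
  refine Finset.sum_congr rfl fun p _ => ?_
  rw [Matrix.smul_mul, Matrix.trace_smul, smul_eq_mul]

/-- `sum over p of the derivative of tr (B_p W(w))` -/
theorem sum_pderiv_one (i : ι) (w : List ι) :
    ∑ p : Fin k × Fin k, pderiv (i, p) (((Bm p).map C * Wm w).trace) =
      ((splits i w).map fun q => Tm k q.1 * Tm k q.2).sum := by
  have h1 : ∀ p : Fin k × Fin k, pderiv (i, p) (((Bm p).map C * Wm w).trace) =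
      ((splits i w).map fun q => ((Bm p).map C * Wm q.1 * (Bm p).map C * Wm q.2).trace).sum := by
    intro p
    rw [wd_trace, wd_map_mul, wd_map_C, Matrix.zero_mul, zero_add, pderiv_Wm,
      ← List.sum_map_mul_left, Matrix.trace_list_sum, List.map_map]
    congr 1
    refine List.map_congr_left fun q _ => ?_
    simp only [Function.comp, Matrix.mul_assoc]
  simp_rw [h1]
  have h2 : ∀ L : List (List ι × List ι), ∑ p : Fin k × Fin k,
      (L.map fun q => ((Bm p).map C * Wm q.1 * (Bm p).map C * Wm q.2).trace).sum =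
      (L.map fun q => Tm k q.1 * Tm k q.2).sum := by
    intro L
    induction L with
    | nil => simp
    | cons q L ih =>
      simp only [List.map_cons, List.sum_cons]
      rw [Finset.sum_add_distrib, ih, sum_trace_one]
      rfl
  exact h2 _

/-- `sum over p of tr (B_p W(w))` times the derivative of `tr W(u)` -/
theorem sum_pderiv_two (i : ι) (w u : List ι) :
    ∑ p : Fin k × Fin k, ((Bm p).map C * Wm w).trace * pderiv (i, p) (Tm k u) =
      ((splits i u).map fun q => Tm k (w ++ q.2 ++ q.1)).sum := by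
  have h1 : ∀ p : Fin k × Fin k, pderiv (i, p) (Tm k u) =
      ((splits i u).map fun q => ((Bm p).map C * (Wm q.2 * Wm q.1)).trace).sum := by
    intro p
    unfold Tm
    rw [wd_trace, pderiv_Wm, Matrix.trace_list_sum, List.map_map]
    congr 1
    refine List.map_congr_left fun q _ => ?_
    simp only [Function.comp]
    rw [Matrix.mul_assoc, Matrix.trace_mul_comm, Matrix.mul_assoc]
  simp_rw [h1]
  have h2 : ∀ L : List (List ι × List ι), ∑ p : Fin k × Fin k,
      ((Bm p).map C * Wm w).trace *
        (L.map fun q => ((Bm p).map C * (Wm q.2 * Wm q.1)).trace).sum =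
      (L.map fun q => Tm k (w ++ q.2 ++ q.1)).sum := by
    intro L
    induction L with
    | nil => simp
    | cons q L ih =>
      simp only [List.map_cons, List.sum_cons, mul_add]
      rw [Finset.sum_add_distrib, ih, sum_trace_two]
      unfold Tm
      rw [wd_Wm_append, wd_Wm_append, Matrix.mul_assoc]
  exact h2 _

end P087.GU
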