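import Vale.Agent.Lib.P087.G.Ibp
import Vale.Agent.Lib.P087.G.Words

/-! P087 G/SD: Schwinger-Dyson recursion for `fk`. -/

open MeasureTheory ProbabilityTheory Matrix MvPolynomial

namespace P087.GU

variable {ι : Type} [Fintype ι] [DecidableEq ι]

theorem fk_nil (k : ℕ) : fk k ([] : List (List ι)) = 1 := by
  simp [fk, EP_one]

theorem fk_nil_cons (k : ℕ) (hk : 0 < k) (L : List (List ι)) : fk k ([] :: L) = fk k L := by
  have hk' : (k : ℂ) ≠ 0 := by exact_mod_cast hk.ne'
  unfold fk
  rw [List.map_cons, List.prod_cons, Tm_nil, EP_C_mul, List.length_cons, pow_succ]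
  field_simp

private theorem EP_zero (k : ℕ) : EP (0 : MvPolynomial (ι × (Fin k × Fin k)) ℂ) = 0 := by
  have h := EP_C_mul (ι := ι) (k := k) 0 0
  rw [C_0, zero_mul, zero_mul] at h
  exact h

private theorem EP_list {k : ℕ} {τ : Type*} (l : List τ)
    (f : τ → MvPolynomial (ι × (Fin k × Fin k)) ℂ) :
    EP (l.map f).sum = (l.map fun q => EP (f q)).sum := by
  induction l with
  | nil => simp [EP_zero]
  | cons a l ih => rw [List.map_cons, List.sum_cons, EP_add, ih, List.map_cons, List.sum_cons]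

private theorem deriv_list_prod {A τ : Type*} [CommRing A] [Algebra ℂ A] (D : Derivation ℂ A A)
    (f : τ → A) (L : List τ) : D ((L.map f).prod) =
      ∑ l : Fin L.length, D (f (L.get l)) * ((L.eraseIdx l).map f).prod := by
  induction L with
  | nil => simp
  | cons u L ih =>
    have h1 : (∑ l : Fin (u :: L).length, D (f ((u :: L).get l)) *
        (((u :: L).eraseIdx l).map f).prod) =
        D (f u) * (L.map f).prod + ∑ l : Fin L.length,
          D (f (L.get l)) * (f u * ((L.eraseIdx l).map f).prod) := by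
      exact Fin.sum_univ_succ (n := L.length) (fun l : Fin (L.length + 1) =>
        D (f ((u :: L).get l)) * (((u :: L).eraseIdx l).map f).prod)
    rw [h1, List.map_cons, List.prod_cons, Derivation.leibniz, ih]
    simp only [smul_eq_mul, Finset.mul_sum]
    rw [add_comm, mul_comm (L.map f).prod]
    congr 1
    refine Finset.sum_congr rfl fun l _ => ?_
    ring

omit [Fintype ι] [DecidableEq ι] in
private theorem pderiv_list_prod (k : ℕ) (s : ι × (Fin k × Fin k)) (L : List (List ι)) :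
    pderiv s ((L.map (Tm k)).prod) =
      ∑ l : Fin L.length, pderiv s (Tm k (L.get l)) * ((L.eraseIdx l).map (Tm k)).prod :=
  deriv_list_prod (pderiv s) (Tm k) L

private theorem EP_one_step (k : ℕ) (s : ι × (Fin k × Fin k))
    (a P : MvPolynomial (ι × (Fin k × Fin k)) ℂ) :
    EP (X s * a * P) = (1 / (k : ℂ)) * (EP (pderiv s a * P) + EP (a * pderiv s P)) := by
  rw [mul_assoc, EP_ibp, Derivation.leibniz, ← EP_add]
  simp only [smul_eq_mul]
  rw [add_comm, mul_comm P]

private theorem EP_sum_step (k : ℕ) (i : ι)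
    (a : Fin k × Fin k → MvPolynomial (ι × (Fin k × Fin k)) ℂ)
    (P : MvPolynomial (ι × (Fin k × Fin k)) ℂ) :
    EP ((∑ p : Fin k × Fin k, X (i, p) * a p) * P) = (1 / (k : ℂ)) *
      (EP ((∑ p : Fin k × Fin k, pderiv (i, p) (a p)) * P) +
        EP (∑ p : Fin k × Fin k, a p * pderiv (i, p) P)) := by
  have h1 : EP ((∑ p : Fin k × Fin k, X (i, p) * a p) * P) =
      ∑ p : Fin k × Fin k, EP (X (i, p) * a p * P) := by
    rw [Finset.sum_mul]
    exact EP_sum _ _
  have h2 : ∑ p : Fin k × Fin k, EP (X (i, p) * a p * P) = ∑ p : Fin k × Fin k,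
      (1 / (k : ℂ)) * (EP (pderiv (i, p) (a p) * P) + EP (a p * pderiv (i, p) P)) :=
    Finset.sum_congr rfl fun p _ => EP_one_step k (i, p) (a p) P
  have h3 : EP ((∑ p : Fin k × Fin k, pderiv (i, p) (a p)) * P) =
      ∑ p : Fin k × Fin k, EP (pderiv (i, p) (a p) * P) := by
    rw [Finset.sum_mul]
    exact EP_sum _ _
  have h4 : EP (∑ p : Fin k × Fin k, a p * pderiv (i, p) P) =
      ∑ p : Fin k × Fin k, EP (a p * pderiv (i, p) P) := EP_sum _ _
  rw [h1, h2, h3, h4, ← Finset.mul_sum, Finset.sum_add_distrib]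

private theorem EP_Tm_mul (k : ℕ) (i : ι) (w : List ι)
    (P : MvPolynomial (ι × (Fin k × Fin k)) ℂ) :
    EP (Tm k (i :: w) * P) = (1 / (k : ℂ)) *
      (EP ((∑ p : Fin k × Fin k, pderiv (i, p) (((Bm p).map C * Wm w).trace)) * P) +
        EP (∑ p : Fin k × Fin k, ((Bm p).map C * Wm w).trace * pderiv (i, p) P)) := by
  have h := EP_sum_step (ι := ι) k i
    (fun p => ((Bm p).map (C : ℂ →+* MvPolynomial (ι × (Fin k × Fin k)) ℂ) * Wm w).trace) P
  have h2 := Tm_cons (ι := ι) k i w
  rw [h2]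
  exact h

private theorem step_one (k : ℕ) (i : ι) (w : List ι)
    (P : MvPolynomial (ι × (Fin k × Fin k)) ℂ) :
    (∑ p : Fin k × Fin k, pderiv (i, p) (((Bm p).map C * Wm w).trace)) * P =
      ((splits i w).map fun q => Tm k q.1 * (Tm k q.2 * P)).sum := by
  rw [sum_pderiv_one, ← List.sum_map_mul_right]
  congr 1
  apply List.map_congr_left
  intro q _
  exact mul_assoc _ _ _

private theorem step_two (k : ℕ) (i : ι) (w : List ι) (L : List (List ι)) :
    (∑ p : Fin k × Fin k, ((Bm p).map C * Wm w).trace *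
      pderiv (i, p) ((L.map (Tm k)).prod)) =
      ∑ l : Fin L.length, ((splits i (L.get l)).map fun q =>
        Tm k (w ++ q.2 ++ q.1) * ((L.eraseIdx l).map (Tm k)).prod).sum := by
  have h1 : ∀ p : Fin k × Fin k, ((Bm p).map C * Wm w).trace *
      pderiv (i, p) ((L.map (Tm k)).prod) = ∑ l : Fin L.length,
        ((((Bm p).map C * Wm w).trace * pderiv (i, p) (Tm k (L.get l))) *
          ((L.eraseIdx l).map (Tm k)).prod) := by
    intro p
    rw [pderiv_list_prod, Finset.mul_sum]
    refine Finset.sum_congr rfl fun l _ => ?_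
    rw [mul_assoc]
  rw [Finset.sum_congr rfl fun p _ => h1 p, Finset.sum_comm]
  refine Finset.sum_congr rfl fun l _ => ?_
  rw [← Finset.sum_mul, sum_pderiv_two]
  exact (List.sum_map_mul_right _ _ _).symm

private theorem fin_one (k : ℕ) (hk : 0 < k) (i : ι) (w : List ι) (L : List (List ι)) :
    (1 / (k : ℂ)) * EP ((splits i w).map fun q =>
      Tm k q.1 * (Tm k q.2 * (L.map (Tm k)).prod)).sum / (k : ℂ) ^ (L.length + 1) =
      ((splits i w).map fun q => fk k (q.1 :: q.2 :: L)).sum := by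
  have hk' : (k : ℂ) ≠ 0 := by exact_mod_cast hk.ne'
  rw [EP_list, ← List.sum_map_mul_left, div_eq_mul_inv, ← List.sum_map_mul_right]
  congr 1
  apply List.map_congr_left
  intro q _
  have h1 : fk k (q.1 :: q.2 :: L) = EP (Tm k q.1 * (Tm k q.2 * (L.map (Tm k)).prod)) /
      (k : ℂ) ^ (L.length + 1 + 1) := rfl
  rw [h1]
  generalize EP (Tm k q.1 * (Tm k q.2 * (L.map (Tm k)).prod)) = z
  rw [pow_succ _ (L.length + 1)]
  field_simp

private theorem fin_two (k : ℕ) (hk : 0 < k) (i : ι) (w : List ι) (L : List (List ι)) :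
    (1 / (k : ℂ)) * EP (∑ l : Fin L.length, ((splits i (L.get l)).map fun q =>
        Tm k (w ++ q.2 ++ q.1) * ((L.eraseIdx l).map (Tm k)).prod).sum) /
        (k : ℂ) ^ (L.length + 1) =
      (1 / (k : ℂ) ^ 2) * ∑ l : Fin L.length,
        ((splits i (L.get l)).map fun q => fk k ((w ++ q.2 ++ q.1) :: L.eraseIdx l)).sum := by
  have hk' : (k : ℂ) ≠ 0 := by exact_mod_cast hk.ne'
  rw [EP_sum, Finset.mul_sum, Finset.mul_sum, Finset.sum_div]
  refine Finset.sum_congr rfl fun l _ => ?_
  have hlen : (L.eraseIdx l).length + 1 = L.length := by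
    rw [List.length_eraseIdx_of_lt l.2]
    have := l.2
    omega
  rw [EP_list, ← List.sum_map_mul_left, ← List.sum_map_mul_left, div_eq_mul_inv,
    ← List.sum_map_mul_right]
  congr 1
  apply List.map_congr_left
  intro q _
  have h1 : fk k ((w ++ q.2 ++ q.1) :: L.eraseIdx l) =
      EP (Tm k (w ++ q.2 ++ q.1) * ((L.eraseIdx l).map (Tm k)).prod) /
      (k : ℂ) ^ ((L.eraseIdx l).length + 1) := rfl
  rw [h1, hlen]
  generalize EP (Tm k (w ++ q.2 ++ q.1) * ((L.eraseIdx l).map (Tm k)).prod) = z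
  rw [pow_succ _ L.length]
  field_simp

/-- use `Tm_cons`, `EP_ibp`, the Leibniz rule for `pderiv` on the product over `L`
(`Derivation.leibniz`, induction on `L`), `sum_pderiv_one`, `sum_pderiv_two` -/
theorem fk_rec (k : ℕ) (hk : 0 < k) (i : ι) (w : List ι) (L : List (List ι)) :
    fk k ((i :: w) :: L) =
      ((splits i w).map fun q => fk k (q.1 :: q.2 :: L)).sum +
      (1 / (k : ℂ) ^ 2) * ∑ l : Fin L.length,
        ((splits i (L.get l)).map fun q => fk k ((w ++ q.2 ++ q.1) :: L.eraseIdx l)).sum := by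
  have h5 : fk k ((i :: w) :: L) = EP (Tm k (i :: w) * (L.map (Tm k)).prod) /
      (k : ℂ) ^ (L.length + 1) := rfl
  rw [← fin_one k hk, ← fin_two k hk, h5, EP_Tm_mul, step_one, step_two, mul_add, add_div]

end P087.GU
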